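import Mathlib
import Vale.Agent.P260.Defs

/-!
# P260: amenable Poincare duality groups with many characters: definitions

`k` is a field, `Γ` a group, `A = MonoidAlgebra k Γ`; free modules are `ι → A` (left modules),
`ψ : Γ →* Multiplicative ℤ` is a character, `deg ψ g` its additive value.
-/

namespace Vale.Agent.P260.H493

/-- The value of the character `ψ` at `g`, as an integer. -/
def deg {Γ : Type} [Group Γ] (ψ : Γ →* Multiplicative ℤ) (g : Γ) : ℤ :=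
  Multiplicative.toAdd (ψ g)

section

variable {k Γ : Type} [Field k] [Group Γ]

/-- All group elements in the supports of the entries of `v` have degree at least `c`. -/
def Ge (ψ : Γ →* Multiplicative ℤ) (c : ℤ) {ι : Type} (v : ι → MonoidAlgebra k Γ) : Prop :=
  ∀ i g, (v i).coeff g ≠ 0 → c ≤ deg ψ g

/-- All group elements in the supports of the entries of `v` have degree at most `c`. -/
def Le (ψ : Γ →* Multiplicative ℤ) (c : ℤ) {ι : Type} (v : ι → MonoidAlgebra k Γ) : Prop :=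
  ∀ i g, (v i).coeff g ≠ 0 → deg ψ g ≤ c

/-- `T` raises degrees by at least `C`. -/
def Shift (ψ : Γ →* Multiplicative ℤ) (C : ℤ) {ι κ : Type}
    (T : (ι → MonoidAlgebra k Γ) →ₗ[MonoidAlgebra k Γ] (κ → MonoidAlgebra k Γ)) : Prop :=
  ∀ c v, Ge ψ c v → Ge ψ (c + C) (T v)

end

/-- A presentation `F₂ → F₁ → F₀ → k_ω → 0` by finitely generated free modules of a one-dimensional
module `k_ω` on which `g` acts as the scalar `ω g`; exact at `F₀` and `F₁`. -/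
structure Res3 (k Γ : Type) [Field k] [Group Γ] where
  ι0 : Type
  ι1 : Type
  ι2 : Type
  [f0 : Fintype ι0]
  [f1 : Fintype ι1]
  [f2 : Fintype ι2]
  [e0 : DecidableEq ι0]
  [e1 : DecidableEq ι1]
  [e2 : DecidableEq ι2]
  d0 : (ι1 → MonoidAlgebra k Γ) →ₗ[MonoidAlgebra k Γ] (ι0 → MonoidAlgebra k Γ)
  d1 : (ι2 → MonoidAlgebra k Γ) →ₗ[MonoidAlgebra k Γ] (ι1 → MonoidAlgebra k Γ)
  ω : Γ → k
  ε : (ι0 → MonoidAlgebra k Γ) →ₗ[k] k
  eps_smul : ∀ (g : Γ) (v), ε (MonoidAlgebra.single g (1 : k) • v) = ω g * ε v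
  eps_surj : Function.Surjective ε
  ex0 : ∀ v, ε v = 0 ↔ ∃ w, d0 w = v
  ex1 : ∀ v, d0 v = 0 ↔ ∃ w, d1 w = v

attribute [instance] Res3.f0 Res3.f1 Res3.f2 Res3.e0 Res3.e1 Res3.e2

/-- `Γ` is a Poincare duality group of dimension `m + 1` over `k`: there is a resolution
`0 → P → F_m → ... → F_0 → k → 0` of the trivial module, with `F_i = A^{r i}` free of finite rank
and `P` the image of an idempotent `π` of `F_{m+1}` (so the map `P → F_m` is `d m` restricted to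
`P`), such that the cohomology of `Hom_A(-, A)` vanishes in degrees `≤ m` and is one-dimensional in
degree `m + 1`.  (The data `r i`, `d i` for large `i` play no role.) -/
structure PDG (k Γ : Type) [Field k] [Group Γ] (m : ℕ) where
  r : ℕ → ℕ
  d : ∀ i, (Fin (r (i + 1)) → MonoidAlgebra k Γ) →ₗ[MonoidAlgebra k Γ]
    (Fin (r i) → MonoidAlgebra k Γ)
  π : (Fin (r (m + 1)) → MonoidAlgebra k Γ) →ₗ[MonoidAlgebra k Γ]
    (Fin (r (m + 1)) → MonoidAlgebra k Γ)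
  ε : (Fin (r 0) → MonoidAlgebra k Γ) →ₗ[k] k
  eps_smul : ∀ (g : Γ) (v), ε (MonoidAlgebra.single g (1 : k) • v) = ε v
  eps_surj : Function.Surjective ε
  /-- exactness at `F_0` -/
  ex0 : ∀ v, ε v = 0 ↔ ∃ w, d 0 w = v
  /-- exactness at `F_{i+1}`, `i + 1 ≤ m` -/
  ex : ∀ i, i < m → ∀ v, d i v = 0 ↔ ∃ w, d (i + 1) w = v
  /-- `π` is idempotent -/
  pi_pi : ∀ v, π (π v) = π v
  d_pi : ∀ v, d m (π v) = d m v
  /-- exactness at `P` -/
  ex_top : ∀ v, d m v = 0 → π v = 0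
  /-- `H^0(Γ; A) = 0` -/
  co0 : ∀ φ : (Fin (r 0) → MonoidAlgebra k Γ) →ₗ[MonoidAlgebra k Γ] MonoidAlgebra k Γ,
    φ ∘ₗ d 0 = 0 → φ = 0
  /-- `H^{i+1}(Γ; A) = 0`, `i + 1 ≤ m` -/
  co : ∀ i, i < m → ∀ φ : (Fin (r (i + 1)) → MonoidAlgebra k Γ) →ₗ[MonoidAlgebra k Γ]
    MonoidAlgebra k Γ, φ ∘ₗ d (i + 1) = 0 →
    ∃ χ : (Fin (r i) → MonoidAlgebra k Γ) →ₗ[MonoidAlgebra k Γ] MonoidAlgebra k Γ, φ = χ ∘ₗ d i
  /-- `H^{m+1}(Γ; A)` is one-dimensional, generated by the class of `φ₀` -/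
  co_top : ∃ φ₀ : (Fin (r (m + 1)) → MonoidAlgebra k Γ) →ₗ[MonoidAlgebra k Γ] MonoidAlgebra k Γ,
    φ₀ ∘ₗ π = φ₀ ∧
    (¬ ∃ χ : (Fin (r m) → MonoidAlgebra k Γ) →ₗ[MonoidAlgebra k Γ] MonoidAlgebra k Γ,
      φ₀ = χ ∘ₗ d m) ∧
    ∀ φ : (Fin (r (m + 1)) → MonoidAlgebra k Γ) →ₗ[MonoidAlgebra k Γ] MonoidAlgebra k Γ,
      φ ∘ₗ π = φ → ∃ (c : k)
        (χ : (Fin (r m) → MonoidAlgebra k Γ) →ₗ[MonoidAlgebra k Γ] MonoidAlgebra k Γ),
        ∀ v, φ v = c • φ₀ v + χ (d m v)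

section

variable {k Γ : Type} [Field k] [Group Γ]

/-- Degree-0 lifting: for every `C` there is `h₀ : F₀ → F₁` with `1 - d₀h₀` raising degrees by `C`. -/
def LowA (R : Res3 k Γ) (ψ : Γ →* Multiplicative ℤ) : Prop :=
  ∀ C : ℤ, ∃ h0 : (R.ι0 → MonoidAlgebra k Γ) →ₗ[MonoidAlgebra k Γ] (R.ι1 → MonoidAlgebra k Γ),
    Shift ψ C (LinearMap.id - R.d0 ∘ₗ h0)

/-- Lifting in degrees 0 and 1. -/
def LowB (R : Res3 k Γ) (ψ : Γ →* Multiplicative ℤ) : Prop :=
  ∀ C : ℤ, ∃ (h0 : (R.ι0 → MonoidAlgebra k Γ) →ₗ[MonoidAlgebra k Γ] (R.ι1 → MonoidAlgebra k Γ))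
    (h1 : (R.ι1 → MonoidAlgebra k Γ) →ₗ[MonoidAlgebra k Γ] (R.ι2 → MonoidAlgebra k Γ)),
    Shift ψ C (LinearMap.id - R.d0 ∘ₗ h0) ∧ Shift ψ C (LinearMap.id - h0 ∘ₗ R.d0 - R.d1 ∘ₗ h1)

namespace PDG

variable {m : ℕ} (P : PDG k Γ m)

/-- a sequence of maps `h i : F_i → F_{i+1}` -/
abbrev Hom1 : Type := ∀ i, (Fin (P.r i) → MonoidAlgebra k Γ) →ₗ[MonoidAlgebra k Γ]
  (Fin (P.r (i + 1)) → MonoidAlgebra k Γ)

/-- The defect `1 - dh - hd` in degree `i` (for `i ≤ m`). -/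
noncomputable def defect (h : P.Hom1) : ∀ i, (Fin (P.r i) → MonoidAlgebra k Γ)
    →ₗ[MonoidAlgebra k Γ] (Fin (P.r i) → MonoidAlgebra k Γ)
  | 0 => LinearMap.id - P.d 0 ∘ₗ h 0
  | i + 1 => LinearMap.id - h i ∘ₗ P.d i - P.d (i + 1) ∘ₗ h (i + 1)

/-- The defect in the top degree `m + 1`: `π - π h d`. -/
noncomputable def topDefect (h : P.Hom1) : (Fin (P.r (m + 1)) → MonoidAlgebra k Γ)
    →ₗ[MonoidAlgebra k Γ] (Fin (P.r (m + 1)) → MonoidAlgebra k Γ) :=
  P.π - P.π ∘ₗ h m ∘ₗ P.d m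

/-- Contraction up to high degree in homological degrees `< j` -/
def Low (ψ : Γ →* Multiplicative ℤ) (j : ℕ) : Prop :=
  ∀ C : ℤ, ∃ h : P.Hom1, ∀ i, i < j → Shift ψ C (P.defect h i)

/-- Contraction up to high degree in homological degrees `> j` -/
def High (ψ : Γ →* Multiplicative ℤ) (j : ℕ) : Prop :=
  ∀ C : ℤ, ∃ h : P.Hom1, (∀ i, j < i → i ≤ m → Shift ψ C (P.defect h i)) ∧
    Shift ψ C (P.topDefect h)

/-- The identity is homotopic to a map that raises degrees by `C`, for every `C`. -/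
def Push (ψ : Γ →* Multiplicative ℤ) : Prop :=
  ∀ C : ℤ, ∃ h : P.Hom1, (∀ i, i ≤ m → Shift ψ C (P.defect h i)) ∧ Shift ψ C (P.topDefect h)

end PDG

end

/-! ### Sequences of maps, modulo sequences of high degree -/

section

variable {k Γ : Type} [Field k] [Group Γ] {ι κ : Type}

/-- degrees are lowered by a bounded amount, uniformly in `n` -/
def Bd (ψ : Γ →* Multiplicative ℤ)
    (T : ℕ → (ι → MonoidAlgebra k Γ) →ₗ[MonoidAlgebra k Γ] (κ → MonoidAlgebra k Γ)) : Prop :=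
  ∃ C : ℤ, ∀ n, Shift ψ C (T n)

/-- `T n` raises degrees by more and more -/
def Null (ψ : Γ →* Multiplicative ℤ)
    (T : ℕ → (ι → MonoidAlgebra k Γ) →ₗ[MonoidAlgebra k Γ] (κ → MonoidAlgebra k Γ)) : Prop :=
  ∀ C : ℤ, ∃ N, ∀ n ≥ N, Shift ψ C (T n)

/-- `T n - T n'` raises degrees by more and more -/
def Cau (ψ : Γ →* Multiplicative ℤ)
    (T : ℕ → (ι → MonoidAlgebra k Γ) →ₗ[MonoidAlgebra k Γ] (κ → MonoidAlgebra k Γ)) : Prop :=
  ∀ C : ℤ, ∃ N, ∀ n ≥ N, ∀ n' ≥ N, Shift ψ C (T n - T n')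

end

/-! ### Modules over the group algebra of a subgroup -/

section

variable {k Γ : Type} [Field k] [Group Γ]

/-- `k[Γ]` as a left module over `k[Δ]`, `Δ` a subgroup. -/
noncomputable instance modSub (Δ : Subgroup Γ) :
    Module (MonoidAlgebra k Δ) (MonoidAlgebra k Γ) :=
  Module.compHom _ (MonoidAlgebra.mapDomainRingHom k Δ.subtype)

/-- An `A`-linear map is linear over the group algebra of a subgroup. -/
noncomputable def resS (Δ : Subgroup Γ) {ι κ : Type}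
    (T : (ι → MonoidAlgebra k Γ) →ₗ[MonoidAlgebra k Γ] (κ → MonoidAlgebra k Γ)) :
    (ι → MonoidAlgebra k Γ) →ₗ[MonoidAlgebra k Δ] (κ → MonoidAlgebra k Γ) where
  toFun := T
  map_add' := T.map_add
  map_smul' b v := T.map_smul (MonoidAlgebra.mapDomainRingHom k Δ.subtype b) v

/-- The functional `z` vanishes on vectors of degree `≤ c`. -/
def UpF (ψ : Γ →* Multiplicative ℤ) (c : ℤ) {ι N : Type} [Zero N]
    (z : (ι → MonoidAlgebra k Γ) → N) : Prop :=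
  ∀ v, Le ψ c v → z v = 0

/-- The functional `z` vanishes on vectors of degree `≥ c`. -/
def DownF (ψ : Γ →* Multiplicative ℤ) (c : ℤ) {ι N : Type} [Zero N]
    (z : (ι → MonoidAlgebra k Γ) → N) : Prop :=
  ∀ v, Ge ψ c v → z v = 0

end

/-- `k` with the trivial action of a group. -/
def Triv (k : Type) : Type := k

noncomputable instance (k : Type) [Field k] : AddCommGroup (Triv k) :=
  inferInstanceAs (AddCommGroup k)

/-- the trivial module -/
noncomputable instance modTriv (k Δ : Type) [Field k] [Group Δ] :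
    Module (MonoidAlgebra k Δ) (Triv k) :=
  Module.compHom k (MonoidAlgebra.lift k k Δ (1 : Δ →* k) : MonoidAlgebra k Δ →ₐ[k] k).toRingHom

/-- Two submodules of (free) modules whose inclusions are equivalent up to maps through the
ambient modules. -/
def SEs {R F' F : Type} [Ring R] [AddCommGroup F'] [Module R F'] [AddCommGroup F] [Module R F]
    (Z' : Submodule R F') (Z : Submodule R F) : Prop :=
  ∃ (a : F' →ₗ[R] F) (b : F →ₗ[R] F') (e' : F' →ₗ[R] F') (e : F →ₗ[R] F),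
    (∀ x ∈ Z', a x ∈ Z) ∧ (∀ x ∈ Z, b x ∈ Z') ∧ (∀ x, e' x ∈ Z') ∧ (∀ x, e x ∈ Z) ∧
    (∀ x ∈ Z', x - b (a x) = e' x) ∧ (∀ x ∈ Z, x - a (b x) = e x)

/-! ### Cayley graph notions -/

section

variable {Γ : Type} [Group Γ]

/-- `θ` is a real character. -/
def IsChar (θ : Γ → ℝ) : Prop := ∀ a b, θ (a * b) = θ a + θ b

/-- The sum of the cochain `c` along the path that starts at `x` and has letters `w`. -/
def psum {K : Type} [AddCommMonoid K] (c : Γ → Γ → K) : Γ → List Γ → K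
  | _, [] => 0
  | x, s :: w => c x s + psum c (x * s) w

/-- Cochains on the Cayley graph of `(Γ, S)` that vanish on closed walks of length `≤ N` vanish on
all closed walks. -/
def FP2 (S : Finset Γ) (N : ℕ) : Prop :=
  ∀ c : Γ → Γ → ℚ,
    (∀ x (w : List Γ), (∀ s ∈ w, s ∈ S) → w.prod = 1 → w.length ≤ N → psum c x w = 0) →
    ∀ x (w : List Γ), (∀ s ∈ w, s ∈ S) → w.prod = 1 → psum c x w = 0

/-- There is a path from `x` to `y` with letters in `S` and all vertices satisfying `Q`. -/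
def Conn (S : Finset Γ) (Q : Γ → Prop) (x y : Γ) : Prop :=
  Relation.ReflTransGen (fun a b => (∃ s ∈ S, b = a * s) ∧ Q b) x y ∧ Q x

/-- `θ` has arbitrarily high connecting paths: for some `h` with `θ h > 0`, for all `g` and `C`, for
all large `n` the points `h ^ n` and `g * h ^ n` are joined by a path in `{θ ≥ C}`. -/
def Up (S : Finset Γ) (θ : Γ → ℝ) : Prop :=
  ∃ h : Γ, 0 < θ h ∧ ∀ (g : Γ) (C : ℝ), ∃ N : ℕ, ∀ n ≥ N,
    Conn S (fun y => C ≤ θ y) (h ^ n) (g * h ^ n)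

/-- A finite symmetric generating set. -/
structure GenSet (S : Finset Γ) : Prop where
  gen : Subgroup.closure (S : Set Γ) = ⊤
  inv : ∀ s ∈ S, s⁻¹ ∈ S

end

end Vale.Agent.P260.H493
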