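import Mathlib
import Vale.Agent.P260.H493.Defs

/-!
# P260 climb: small lemmas on degrees
-/

namespace Vale.Agent.P260.H493

open MonoidAlgebra

section

variable {k Γ : Type} [Field k] [Group Γ] (ψ : Γ →* Multiplicative ℤ)

@[simp] theorem deg_one : deg ψ 1 = 0 := by simp [deg]
@[simp] theorem deg_mul (a b : Γ) : deg ψ (a * b) = deg ψ a + deg ψ b := by simp [deg]
@[simp] theorem deg_inv (a : Γ) : deg ψ a⁻¹ = - deg ψ a := by simp [deg]
@[simp] theorem deg_inv' (a : Γ) : deg ψ⁻¹ a = - deg ψ a := by simp [deg]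
@[simp] theorem deg_pow (a : Γ) (n : ℕ) : deg ψ (a ^ n) = n * deg ψ a := by simp [deg]
@[simp] theorem deg_zpow (a : Γ) (n : ℤ) : deg ψ (a ^ n) = n * deg ψ a := by simp [deg]

theorem exists_deg (h : Function.Surjective ψ) (n : ℤ) : ∃ g, deg ψ g = n := by
  obtain ⟨g, hg⟩ := h (Multiplicative.ofAdd n)
  exact ⟨g, by simp [deg, hg]⟩

variable {ψ} {ι κ μ : Type}

theorem ge_zero (c : ℤ) : Ge ψ c (0 : ι → MonoidAlgebra k Γ) := by
  intro i g h; simp at h

theorem le_zero' (c : ℤ) : Le ψ c (0 : ι → MonoidAlgebra k Γ) := by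
  intro i g h; simp at h

theorem Ge.mono {c c' : ℤ} {v : ι → MonoidAlgebra k Γ} (h : Ge ψ c v) (hc : c' ≤ c) : Ge ψ c' v :=
  fun i g hg => hc.trans (h i g hg)

theorem Le.mono {c c' : ℤ} {v : ι → MonoidAlgebra k Γ} (h : Le ψ c v) (hc : c ≤ c') : Le ψ c' v :=
  fun i g hg => (h i g hg).trans hc

theorem ge_inv_iff {c : ℤ} {v : ι → MonoidAlgebra k Γ} : Ge ψ⁻¹ c v ↔ Le ψ (-c) v := by
  constructor
  · intro h i g hg
    have := h i g hg
    rw [deg_inv'] at this; omega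
  · intro h i g hg
    have := h i g hg
    rw [deg_inv']; omega

theorem le_inv_iff {c : ℤ} {v : ι → MonoidAlgebra k Γ} : Le ψ⁻¹ c v ↔ Ge ψ (-c) v := by
  constructor
  · intro h i g hg
    have := h i g hg
    rw [deg_inv'] at this; omega
  · intro h i g hg
    have := h i g hg
    rw [deg_inv']; omega

theorem Ge.add {c : ℤ} {v w : ι → MonoidAlgebra k Γ} (hv : Ge ψ c v) (hw : Ge ψ c w) :
    Ge ψ c (v + w) := by
  intro i g h
  by_cases h1 : (v i).coeff g = 0
  · refine hw i g fun h2 => h ?_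
    simp [h1, h2]
  · exact hv i g h1

theorem Ge.neg {c : ℤ} {v : ι → MonoidAlgebra k Γ} (hv : Ge ψ c v) : Ge ψ c (-v) := by
  intro i g h
  refine hv i g fun h2 => h ?_
  simp [h2]

theorem Ge.sub {c : ℤ} {v w : ι → MonoidAlgebra k Γ} (hv : Ge ψ c v) (hw : Ge ψ c w) :
    Ge ψ c (v - w) := by
  rw [sub_eq_add_neg]; exact hv.add hw.neg

theorem Le.add {c : ℤ} {v w : ι → MonoidAlgebra k Γ} (hv : Le ψ c v) (hw : Le ψ c w) :
    Le ψ c (v + w) := by
  rw [← neg_neg c, ← ge_inv_iff] at *; exact hv.add hw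

theorem Le.neg {c : ℤ} {v : ι → MonoidAlgebra k Γ} (hv : Le ψ c v) : Le ψ c (-v) := by
  rw [← neg_neg c, ← ge_inv_iff] at *; exact Ge.neg hv

theorem Le.sub {c : ℤ} {v w : ι → MonoidAlgebra k Γ} (hv : Le ψ c v) (hw : Le ψ c w) :
    Le ψ c (v - w) := by
  rw [← neg_neg c, ← ge_inv_iff] at *; exact hv.sub hw

theorem Ge.sum {c : ℤ} {α : Type} {s : Finset α} {v : α → ι → MonoidAlgebra k Γ}
    (hv : ∀ a ∈ s, Ge ψ c (v a)) : Ge ψ c (∑ a ∈ s, v a) := by
  classical
  induction s using Finset.induction_on with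
  | empty => simpa using ge_zero c
  | insert a s ha ih =>
    rw [Finset.sum_insert ha]
    exact (hv a (by simp)).add (ih fun b hb => hv b (by simp [hb]))

theorem Le.sum {c : ℤ} {α : Type} {s : Finset α} {v : α → ι → MonoidAlgebra k Γ}
    (hv : ∀ a ∈ s, Le ψ c (v a)) : Le ψ c (∑ a ∈ s, v a) := by
  rw [← neg_neg c, ← ge_inv_iff]
  exact Ge.sum fun a ha => by rw [ge_inv_iff, neg_neg]; exact hv a ha

/-- scalars of `k` do not change degrees -/
theorem Ge.smul {c : ℤ} {v : ι → MonoidAlgebra k Γ} (hv : Ge ψ c v) (r : k) : Ge ψ c (r • v) := by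
  intro i g h
  refine hv i g fun h2 => h ?_
  simp [h2]

theorem Le.smul {c : ℤ} {v : ι → MonoidAlgebra k Γ} (hv : Le ψ c v) (r : k) : Le ψ c (r • v) := by
  intro i g h
  refine hv i g fun h2 => h ?_
  simp [h2]

theorem coeff_single_mul' (g : Γ) (r : k) (x : MonoidAlgebra k Γ) (y : Γ) :
    (single g r * x).coeff y = r * x.coeff (g⁻¹ * y) := by
  have := coeff_single_mul_eq_mul_coeff (r := r) (x := x) (m := g) (m₁ := y) (g⁻¹ * y)
    (fun m' _ => eq_inv_mul_iff_mul_eq.symm)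
  exact this

/-- `single g r • v` has degrees shifted by `deg g` -/
theorem Ge.single_smul {c : ℤ} {v : ι → MonoidAlgebra k Γ} (hv : Ge ψ c v) (g : Γ) (r : k) :
    Ge ψ (deg ψ g + c) (single g r • v) := by
  intro i y h
  have h1 : (v i).coeff (g⁻¹ * y) ≠ 0 := by
    intro h2; apply h
    rw [Pi.smul_apply, smul_eq_mul, coeff_single_mul', h2, mul_zero]
  have := hv i _ h1
  rw [deg_mul, deg_inv] at this; omega

theorem Le.single_smul {c : ℤ} {v : ι → MonoidAlgebra k Γ} (hv : Le ψ c v) (g : Γ) (r : k) :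
    Le ψ (deg ψ g + c) (single g r • v) := by
  intro i y h
  have h1 : (v i).coeff (g⁻¹ * y) ≠ 0 := by
    intro h2; apply h
    rw [Pi.smul_apply, smul_eq_mul, coeff_single_mul', h2, mul_zero]
  have := hv i _ h1
  rw [deg_mul, deg_inv] at this; omega

theorem exists_ge [Finite ι] (v : ι → MonoidAlgebra k Γ) : ∃ c, Ge ψ c v := by
  classical
  cases nonempty_fintype ι
  let S : Finset ℤ := Finset.univ.biUnion fun i => (v i).coeff.support.image (deg ψ)
  obtain ⟨c, hc⟩ := S.bddBelow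
  refine ⟨c, fun i g hg => hc ?_⟩
  simp only [S, Finset.coe_biUnion, Set.mem_iUnion]
  exact ⟨i, by simp, by simpa using ⟨g, hg, rfl⟩⟩

theorem exists_le [Finite ι] (v : ι → MonoidAlgebra k Γ) : ∃ c, Le ψ c v := by
  obtain ⟨c, hc⟩ := exists_ge (ψ := ψ⁻¹) v
  exact ⟨-c, ge_inv_iff.1 hc⟩

/-- expansion of a vector -/
theorem expand [Fintype ι] [DecidableEq ι] (v : ι → MonoidAlgebra k Γ) :
    v = ∑ j, ∑ g ∈ (v j).coeff.support, (v j).coeff g • single g (1 : k) •
      (Pi.single j 1 : ι → MonoidAlgebra k Γ) := by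
  have h1 : v = ∑ j, (v j) • (Pi.single j 1 : ι → MonoidAlgebra k Γ) := by
    funext i
    simp [Finset.sum_apply, Pi.single_apply]
  conv_lhs => rw [h1]
  refine Finset.sum_congr rfl fun j _ => ?_
  have h2 : v j = ∑ g ∈ (v j).coeff.support, (v j).coeff g • single g (1 : k) := by
    conv_lhs => rw [← sum_coeff_single (v j)]
    rw [Finsupp.sum]
    refine Finset.sum_congr rfl fun g _ => ?_
    rw [smul_single]; simp
  conv_lhs => rw [h2, Finset.sum_smul]
  refine Finset.sum_congr rfl fun g _ => ?_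
  rw [smul_assoc]

theorem map_k_smul (T : (ι → MonoidAlgebra k Γ) →ₗ[MonoidAlgebra k Γ] (κ → MonoidAlgebra k Γ))
    (r : k) (v : ι → MonoidAlgebra k Γ) : T (r • v) = r • T v := by
  have h : ∀ {α : Type} (w : α → MonoidAlgebra k Γ), r • w = single (1 : Γ) r • w := by
    intro α w
    funext i
    apply MonoidAlgebra.ext
    ext y
    simp
  rw [h, h, T.map_smul]

theorem shift_of_basis [Fintype ι] [DecidableEq ι] {C : ℤ}
    {T : (ι → MonoidAlgebra k Γ) →ₗ[MonoidAlgebra k Γ] (κ → MonoidAlgebra k Γ)}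
    (h : ∀ j, Ge ψ C (T (Pi.single j 1))) : Shift ψ C T := by
  intro c v hv
  rw [expand v, map_sum]
  refine Ge.sum fun j _ => ?_
  rw [map_sum]
  refine Ge.sum fun g hg => ?_
  rw [map_k_smul, T.map_smul]
  refine Ge.smul (((h j).single_smul g 1).mono ?_) _
  have := hv j g (by simpa using hg)
  omega

theorem Shift.basis {C : ℤ}
    {T : (ι → MonoidAlgebra k Γ) →ₗ[MonoidAlgebra k Γ] (κ → MonoidAlgebra k Γ)} [DecidableEq ι]
    (h : Shift ψ C T) (j : ι) : Ge ψ C (T (Pi.single j 1)) := by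
  classical
  have := h 0 (Pi.single j 1) ?_
  · simpa using this
  · intro i g hg
    by_cases hi : i = j
    · subst hi
      simp only [Pi.single_eq_same, one_def, coeff_single] at hg
      rw [Finsupp.single_apply] at hg
      split_ifs at hg with h1
      · rw [← h1]; simp
      · exact absurd rfl hg
    · simp [Pi.single_eq_of_ne hi] at hg

theorem exists_shift [Finite ι] [Finite κ]
    (T : (ι → MonoidAlgebra k Γ) →ₗ[MonoidAlgebra k Γ] (κ → MonoidAlgebra k Γ)) :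
    ∃ C, Shift ψ C T := by
  classical
  cases nonempty_fintype ι
  choose c hc using fun j : ι => exists_ge (ψ := ψ) (T (Pi.single j 1))
  obtain ⟨C, hC⟩ := (Finset.univ.image c).bddBelow
  exact ⟨C, shift_of_basis fun j => (hc j).mono (hC (by simp))⟩

theorem Shift.mono {C C' : ℤ}
    {T : (ι → MonoidAlgebra k Γ) →ₗ[MonoidAlgebra k Γ] (κ → MonoidAlgebra k Γ)}
    (h : Shift ψ C T) (hC : C' ≤ C) : Shift ψ C' T :=
  fun c v hv => (h c v hv).mono (by omega)

theorem Shift.zero (C : ℤ) :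
    Shift ψ C (0 : (ι → MonoidAlgebra k Γ) →ₗ[MonoidAlgebra k Γ] (κ → MonoidAlgebra k Γ)) :=
  fun c v _ => by simpa using ge_zero (c + C)

theorem Shift.id :
    Shift ψ 0 (LinearMap.id : (ι → MonoidAlgebra k Γ) →ₗ[MonoidAlgebra k Γ] _) :=
  fun c v hv => by simpa using hv

theorem Shift.add {C : ℤ}
    {T U : (ι → MonoidAlgebra k Γ) →ₗ[MonoidAlgebra k Γ] (κ → MonoidAlgebra k Γ)}
    (h : Shift ψ C T) (h' : Shift ψ C U) : Shift ψ C (T + U) :=
  fun c v hv => (h c v hv).add (h' c v hv)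

theorem Shift.neg {C : ℤ}
    {T : (ι → MonoidAlgebra k Γ) →ₗ[MonoidAlgebra k Γ] (κ → MonoidAlgebra k Γ)}
    (h : Shift ψ C T) : Shift ψ C (-T) :=
  fun c v hv => (h c v hv).neg

theorem Shift.sub {C : ℤ}
    {T U : (ι → MonoidAlgebra k Γ) →ₗ[MonoidAlgebra k Γ] (κ → MonoidAlgebra k Γ)}
    (h : Shift ψ C T) (h' : Shift ψ C U) : Shift ψ C (T - U) :=
  fun c v hv => (h c v hv).sub (h' c v hv)

theorem Shift.comp {C C' : ℤ}
    {T : (ι → MonoidAlgebra k Γ) →ₗ[MonoidAlgebra k Γ] (κ → MonoidAlgebra k Γ)}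
    {U : (κ → MonoidAlgebra k Γ) →ₗ[MonoidAlgebra k Γ] (μ → MonoidAlgebra k Γ)}
    (h : Shift ψ C T) (h' : Shift ψ C' U) : Shift ψ (C + C') (U ∘ₗ T) :=
  fun c v hv => (h' _ _ (h c v hv)).mono (by omega)

theorem Shift.le {C : ℤ}
    {T : (ι → MonoidAlgebra k Γ) →ₗ[MonoidAlgebra k Γ] (κ → MonoidAlgebra k Γ)}
    (h : Shift ψ⁻¹ C T) {c : ℤ} {v : ι → MonoidAlgebra k Γ} (hv : Le ψ c v) :
    Le ψ (c - C) (T v) := by
  have := h (-c) v (ge_inv_iff.2 (by simpa using hv))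
  rw [ge_inv_iff] at this
  exact this.mono (by omega)

end

end Vale.Agent.P260.H493
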