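import Mathlib
import Vale.Agent.P260.Defs
import Vale.Agent.P260.H145.PDZDef
import Vale.Agent.P260.H493.Defs

/-!
# P260 climb: the statements of the modules (frozen)
-/

namespace Vale.Agent.P260.H493

open Vale.Agent.P260.H145 (PD4Z)

/-- M1: rational Poincare duality data from integral data. -/
def StmtPDZ : Prop := ∀ (G : Type) [Group G], PD4Z G → Nonempty (PDG ℚ G 3)

/-- M2: finite generation, and the Cayley graph form of type FP₂ over ℚ. -/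
def StmtFP2 : Prop := ∀ (Γ : Type) [Group Γ] (m : ℕ), PDG ℚ Γ (m + 1) →
  ∃ (S : Finset Γ) (N : ℕ), GenSet S ∧ FP2 S N

/-- M3: Theorem C of Bieri-Neumann-Strebel for amenable groups. -/
def StmtC : Prop := ∀ (Γ : Type) [Group Γ] (S : Finset Γ) (N : ℕ) (θ : Γ → ℝ),
  Folner Γ → GenSet S → FP2 S N → IsChar θ → θ ≠ 0 → Up S θ ∨ Up S (-θ)

/-- M4: openness of `Up`, connectedness of the circle, rational points. -/
def StmtO : Prop := ∀ (Γ : Type) [Group Γ] (S : Finset Γ) (χ₁ χ₂ : Γ →* Multiplicative ℤ),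
  GenSet S →
  (∀ a b : ℤ, (∀ g, a * deg χ₁ g + b * deg χ₂ g = 0) → a = 0 ∧ b = 0) →
  (∀ θ : Γ → ℝ, IsChar θ → θ ≠ 0 → Up S θ ∨ Up S (-θ)) →
  ∃ a b : ℤ, Up S (fun g => ((a * deg χ₁ g + b * deg χ₂ g : ℤ) : ℝ)) ∧
    Up S (fun g => -((a * deg χ₁ g + b * deg χ₂ g : ℤ) : ℝ))

/-- M5a -/
def StmtLowA : Prop := ∀ (k Γ : Type) [Field k] [Group Γ] (ψ : Γ →* Multiplicative ℤ)
  (R : Res3 k Γ), (∃ g, 0 < deg ψ g) → LowA R ψ

/-- M5b -/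
def StmtLowB : Prop := ∀ (k Γ : Type) [Field k] [Group Γ] (ψ : Γ →* Multiplicative ℤ)
  (R : Res3 k Γ) (S : Finset Γ), Up S (fun g => (deg ψ g : ℝ)) → LowB R ψ

/-- M6a: the beginning of the resolution as a `Res3`. -/
def StmtPrimal : Prop := ∀ (k Γ : Type) [Field k] [Group Γ] (m : ℕ) (P : PDG k Γ (m + 1)),
  ∃ R : Res3 k Γ, ∀ ψ : Γ →* Multiplicative ℤ, (LowA R ψ → P.Low ψ 1) ∧ (LowB R ψ → P.Low ψ 2)

/-- M6b: the end of the dual complex as a `Res3`. -/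
def StmtDual : Prop := ∀ (k Γ : Type) [Field k] [Group Γ] (m : ℕ) (P : PDG k Γ (m + 1)),
  ∃ R : Res3 k Γ, ∀ ψ : Γ →* Multiplicative ℤ,
    (LowA R ψ → P.High ψ⁻¹ (m + 1)) ∧ (LowB R ψ → P.High ψ⁻¹ m)

/-- M8: the rank argument. -/
def StmtRK : Prop := ∀ (k Γ : Type) [Field k] [Group Γ] (ψ : Γ →* Multiplicative ℤ) (a b c : ℕ)
  (D : (Fin a → MonoidAlgebra k Γ) →ₗ[MonoidAlgebra k Γ] (Fin b → MonoidAlgebra k Γ))
  (D' : (Fin b → MonoidAlgebra k Γ) →ₗ[MonoidAlgebra k Γ] (Fin c → MonoidAlgebra k Γ)),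
  Folner Γ → Function.Surjective ψ → (∀ v, D' v = 0 → ∃ w, D w = v) →
  ∀ e : ℕ → ((Fin b → MonoidAlgebra k Γ) →ₗ[MonoidAlgebra k Γ] (Fin b → MonoidAlgebra k Γ)),
    Bd ψ e → Cau ψ e → Null ψ (fun n => e n ∘ₗ D) → Null ψ (fun n => D' ∘ₗ e n) →
    Null ψ (fun n => e n ∘ₗ e n - e n) → Null ψ e

/-- M7: low and high contractions give a full one. -/
def StmtASM : Prop := ∀ (k Γ : Type) [Field k] [Group Γ] (m : ℕ) (P : PDG k Γ m)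
  (ψ : Γ →* Multiplicative ℤ) (j : ℕ), 1 ≤ j → j ≤ m → Folner Γ → Function.Surjective ψ →
  P.Low ψ j → P.High ψ j → P.Push ψ

/-- M9: finitely generated free resolutions from a resolution by projectives with Brown's
property. -/
def StmtSE : Prop := ∀ (R : Type) [Ring R] (K : Type) [AddCommGroup K] [Module R K]
  [Module.Finite R K] (F : ℕ → Type) [∀ i, AddCommGroup (F i)] [∀ i, Module R (F i)]
  [∀ i, Module.Projective R (F i)] (d : ∀ i, F (i + 1) →ₗ[R] F i) (ε : F 0 →ₗ[R] K) (M : ℕ),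
  Function.Surjective ε →
  (∀ v, ε v = 0 ↔ ∃ w, d 0 w = v) →
  (∀ i, i < M → ∀ v, d i v = 0 ↔ ∃ w, d (i + 1) w = v) →
  (∀ X : Submodule R (F 0), X.FG → ∃ E : Submodule R (F 0), E.FG ∧ (∀ v ∈ E, ε v = 0) ∧
    ∀ v ∈ X, ε v = 0 → v ∈ E) →
  (∀ i, i < M → ∀ X : Submodule R (F (i + 1)), X.FG → ∃ E : Submodule R (F (i + 1)), E.FG ∧
    (∀ v ∈ E, d i v = 0) ∧ ∀ v ∈ X, d i v = 0 → v ∈ E) →
  ∃ (r : ℕ → ℕ) (d' : ∀ i, (Fin (r (i + 1)) → R) →ₗ[R] (Fin (r i) → R))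
    (ε' : (Fin (r 0) → R) →ₗ[R] K),
    Function.Surjective ε' ∧ (∀ v, ε' v = 0 ↔ ∃ w, d' 0 w = v) ∧
    (∀ i, i < M → ∀ v, d' i v = 0 ↔ ∃ w, d' (i + 1) w = v) ∧
    SEs (LinearMap.ker ε') (LinearMap.ker ε) ∧
    ∀ i, i ≤ M → SEs (LinearMap.ker (d' i)) (LinearMap.ker (d i))

/-- M10: `k[Γ]^n` is projective over `k[ker ψ]`. -/
def StmtProj : Prop := ∀ (k Γ : Type) [Field k] [Group Γ] (ψ : Γ →* Multiplicative ℤ) (n : ℕ),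
  Function.Surjective ψ →
  Module.Projective (MonoidAlgebra k ψ.ker) (Fin n → MonoidAlgebra k Γ)

/-- M11: Brown's property from pushing up and down. -/
def StmtSlab : Prop := ∀ (k Γ : Type) [Field k] [Group Γ] (ψ : Γ →* Multiplicative ℤ) (m : ℕ)
  (P : PDG k Γ (m + 1)), Function.Surjective ψ → P.Push ψ → P.Push ψ⁻¹ →
  (∀ X : Submodule (MonoidAlgebra k ψ.ker) (Fin (P.r 0) → MonoidAlgebra k Γ), X.FG →
    ∃ E : Submodule (MonoidAlgebra k ψ.ker) (Fin (P.r 0) → MonoidAlgebra k Γ), E.FG ∧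
      (∀ v ∈ E, P.ε v = 0) ∧ ∀ v ∈ X, P.ε v = 0 → v ∈ E) ∧
  (∀ i, i < m → ∀ X : Submodule (MonoidAlgebra k ψ.ker) (Fin (P.r (i + 1)) → MonoidAlgebra k Γ),
    X.FG → ∃ E : Submodule (MonoidAlgebra k ψ.ker) (Fin (P.r (i + 1)) → MonoidAlgebra k Γ), E.FG ∧
      (∀ v ∈ E, P.d i v = 0) ∧ ∀ v ∈ X, P.d i v = 0 → v ∈ E)

/-- M12: functionals (linear over the group algebra of a subgroup `Δ` of degree 0) supported in
high degrees form an acyclic complex, if `F` can be pushed down.  (Used for `ψ` and for `ψ⁻¹`.) -/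
def StmtAcyc : Prop := ∀ (k Γ : Type) [Field k] [Group Γ] (ψ : Γ →* Multiplicative ℤ)
  (Δ : Subgroup Γ) (m : ℕ) (P : PDG k Γ m), (∀ g ∈ Δ, ψ g = 1) → P.Push ψ⁻¹ →
  ∀ (N : Type) [AddCommGroup N] [Module (MonoidAlgebra k Δ) N],
    (∀ z : (Fin (P.r 0) → MonoidAlgebra k Γ) →ₗ[MonoidAlgebra k Δ] N,
      z ∘ₗ resS Δ (P.d 0) = 0 → (∃ c, UpF ψ c z) → z = 0) ∧
    (∀ i, i < m → ∀ z : (Fin (P.r (i + 1)) → MonoidAlgebra k Γ) →ₗ[MonoidAlgebra k Δ] N,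
      z ∘ₗ resS Δ (P.d (i + 1)) = 0 → (∃ c, UpF ψ c z) →
      ∃ y : (Fin (P.r i) → MonoidAlgebra k Γ) →ₗ[MonoidAlgebra k Δ] N,
        (∃ c, UpF ψ c y) ∧ z = y ∘ₗ resS Δ (P.d i)) ∧
    (∀ z : (Fin (P.r (m + 1)) → MonoidAlgebra k Γ) →ₗ[MonoidAlgebra k Δ] N,
      z ∘ₗ resS Δ P.π = z → (∃ c, UpF ψ c z) →
      ∃ y : (Fin (P.r m) → MonoidAlgebra k Γ) →ₗ[MonoidAlgebra k Δ] N,
        (∃ c, UpF ψ c y) ∧ z = y ∘ₗ resS Δ (P.d m))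

/-- M13: the cohomology of `Δ = ker ψ`, computed with the complex of `Γ`. -/
def StmtHA : Prop := ∀ (k Γ : Type) [Field k] [Group Γ] (ψ : Γ →* Multiplicative ℤ) (m : ℕ)
  (P : PDG k Γ (m + 1)), Function.Surjective ψ → P.Push ψ → P.Push ψ⁻¹ →
  (∀ (N : Type) [AddCommGroup N] [Module (MonoidAlgebra k ψ.ker) N]
    (z : (Fin (P.r (m + 2)) → MonoidAlgebra k Γ) →ₗ[MonoidAlgebra k ψ.ker] N),
    z ∘ₗ resS ψ.ker P.π = z →
    ∃ y : (Fin (P.r (m + 1)) → MonoidAlgebra k Γ) →ₗ[MonoidAlgebra k ψ.ker] N,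
      z = y ∘ₗ resS ψ.ker (P.d (m + 1))) ∧
  (∀ z : (Fin (P.r 0) → MonoidAlgebra k Γ) →ₗ[MonoidAlgebra k ψ.ker] MonoidAlgebra k ψ.ker,
    z ∘ₗ resS ψ.ker (P.d 0) = 0 → z = 0) ∧
  (∀ i, i < m → ∀ z : (Fin (P.r (i + 1)) → MonoidAlgebra k Γ) →ₗ[MonoidAlgebra k ψ.ker]
      MonoidAlgebra k ψ.ker,
    z ∘ₗ resS ψ.ker (P.d (i + 1)) = 0 →
    ∃ y : (Fin (P.r i) → MonoidAlgebra k Γ) →ₗ[MonoidAlgebra k ψ.ker] MonoidAlgebra k ψ.ker,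
      z = y ∘ₗ resS ψ.ker (P.d i)) ∧
  (∃ z₀ : (Fin (P.r (m + 1)) → MonoidAlgebra k Γ) →ₗ[MonoidAlgebra k ψ.ker]
      MonoidAlgebra k ψ.ker,
    z₀ ∘ₗ resS ψ.ker (P.d (m + 1)) = 0 ∧
    (¬ ∃ y : (Fin (P.r m) → MonoidAlgebra k Γ) →ₗ[MonoidAlgebra k ψ.ker] MonoidAlgebra k ψ.ker,
      z₀ = y ∘ₗ resS ψ.ker (P.d m)) ∧
    ∀ z : (Fin (P.r (m + 1)) → MonoidAlgebra k Γ) →ₗ[MonoidAlgebra k ψ.ker]
      MonoidAlgebra k ψ.ker, z ∘ₗ resS ψ.ker (P.d (m + 1)) = 0 →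
      ∃ (c : k) (y : (Fin (P.r m) → MonoidAlgebra k Γ) →ₗ[MonoidAlgebra k ψ.ker]
        MonoidAlgebra k ψ.ker), ∀ v, z v = c • z₀ v + y (P.d m v))

/-- M14: the fibre is a Poincare duality group. -/
def StmtFiber : Prop := ∀ (k Γ : Type) [Field k] [Group Γ] (ψ : Γ →* Multiplicative ℤ) (m : ℕ)
  (P : PDG k Γ (m + 1)), Function.Surjective ψ → P.Push ψ → P.Push ψ⁻¹ →
  Nonempty (PDG k ψ.ker m)

/-- M14, as an implication. -/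
def StmtPack : Prop := StmtSE → StmtProj → StmtSlab → StmtHA → StmtFiber

/-- M15: transport along an isomorphism of groups. -/
def StmtCongr : Prop := ∀ (k Γ Γ' : Type) [Field k] [Group Γ] [Group Γ'] (_ : Γ ≃* Γ') (m : ℕ),
  PDG k Γ m → Nonempty (PDG k Γ' m)

end Vale.Agent.P260.H493
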