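import Mathlib
import Vale.Agent.P260.Defs
import Vale.Agent.P260.H145.PDZDef
import Vale.Agent.P260.H493.Defs

/-!
# P260 climb, part II: from the common kernel is a PD₂ group over ℚ to virtually solvable
(statements of the modules, frozen)
-/

namespace Vale.Agent.P260.H493

open Vale.Agent.P260.H145 (PD4Z)

section

variable {k Γ : Type} [Field k] [Group Γ] {n : ℕ}

/-- Kaplansky's trace: the sum of the coefficients at `1` of the diagonal entries. -/
noncomputable def tr1 (T : (Fin n → MonoidAlgebra k Γ) →ₗ[MonoidAlgebra k Γ]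
    (Fin n → MonoidAlgebra k Γ)) : k :=
  ∑ j, ((T (Pi.single j 1)) j).coeff 1

/-- The augmented trace: the sum of all coefficients of the diagonal entries. -/
noncomputable def trAug (T : (Fin n → MonoidAlgebra k Γ) →ₗ[MonoidAlgebra k Γ]
    (Fin n → MonoidAlgebra k Γ)) : k :=
  ∑ j, MonoidAlgebra.lift k k Γ (1 : Γ →* k) ((T (Pi.single j 1)) j)

end

/-- N1a: finite generation. -/
def StmtFG : Prop := ∀ (Γ : Type) [Group Γ] (m : ℕ), PDG ℚ Γ m → Group.FG Γ

/-- N1b: Poincare duality groups of positive dimension are infinite. -/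
def StmtInf : Prop := ∀ (k Γ : Type) [Field k] [Group Γ] (m : ℕ), PDG k Γ m → Infinite Γ

/-- N2: Poincare duality groups of dimension one over ℚ are virtually solvable (virtually ℤ). -/
def StmtPD1 : Prop := ∀ (M : Type) [Group M], PDG ℚ M 0 → VSolv M

/-- N3: (finitely generated virtually solvable)-by-ℤ is virtually solvable. -/
def StmtExt : Prop := ∀ (L : Type) [Group L] (χ : L →* Multiplicative ℤ),
  Group.FG χ.ker → VSolv χ.ker → VSolv L

/-- N4: groups of type FF over ℤ are torsion-free. -/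
def StmtTF : Prop := ∀ (G : Type) [Group G], PD4Z G → ∀ g : G, g ≠ 1 → ∀ n : ℕ, 0 < n → g ^ n ≠ 1

/-- N5: if `L` has no nontrivial character, the augmented trace of `π` is large. -/
def StmtB1 : Prop := ∀ (L : Type) [Group L] (P : PDG ℚ L 1),
  (∀ χ : L →* Multiplicative ℤ, χ = 1) → (P.r 1 : ℚ) - P.r 0 + 1 ≤ trAug P.π

/-- N6: for amenable `L` Kaplansky's trace of `π` is at most the amenable rank. -/
def StmtTr1 : Prop := ∀ (L : Type) [Group L] (P : PDG ℚ L 1), Infinite L → Folner L →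
  tr1 P.π ≤ (P.r 1 : ℚ) - P.r 0

/-- N7: Frobenius. -/
def StmtFrob : Prop := ∀ (L : Type) [Group L] (n : ℕ)
  (X : (Fin n → MonoidAlgebra ℚ L) →ₗ[MonoidAlgebra ℚ L] (Fin n → MonoidAlgebra ℚ L)),
  (∀ v, X (X v) = X v) → trAug X ≠ tr1 X → (∀ g : L, g ≠ 1 → ∀ n : ℕ, 0 < n → g ^ n ≠ 1) →
  ∃ (c y : L) (q : ℕ), c ≠ 1 ∧ 2 ≤ q ∧ y * c * y⁻¹ = c ^ q

/-- N8: in a PD₂ group over ℚ a subgroup `⟨c, y | y c y⁻¹ = c^q⟩`, `q ≥ 2`, has finite index. -/
def StmtBS : Prop := ∀ (L : Type) [Group L] (_ : PDG ℚ L 1) (c y : L) (q : ℕ),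
  (∀ n : ℕ, 0 < n → c ^ n ≠ 1) → 2 ≤ q → y * c * y⁻¹ = c ^ q →
  (Subgroup.closure {c, y}).FiniteIndex

/-- N9: such a subgroup is solvable. -/
def StmtMeta : Prop := ∀ (L : Type) [Group L] (c y : L) (q : ℕ), y * c * y⁻¹ = c ^ q →
  Group.IsSolvable (Subgroup.closure {c, y})

end Vale.Agent.P260.H493
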