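import Mathlib
import Vale.Agent.P260.H493.Spec
import Vale.Agent.P260.H493.Basic
import Vale.Agent.P260.H573.FolSub
import Vale.Agent.P260.H11.Low
import Vale.Agent.P260.H119.HA
import Vale.Agent.P260.H243.Proj
import Vale.Agent.P260.H243.Slab
import Vale.Agent.P260.H324.SE
import Vale.Agent.P260.H417.Asm
import Vale.Agent.P260.H708.M6
import Vale.Agent.P260.H724.Pack
import Vale.Agent.P260.H838.FP2
import Vale.Agent.P260.H81.PDZ
import Vale.Agent.P260.H856.O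

/-!
# P260 climb: the descent `PDG (m+1) → PDG m` for kernels of characters (glue)
-/

namespace Vale.Agent.P260.H493

open Vale.Agent.P260.H145 (PD4Z)

/-- M14 -/
theorem stmtFiber : StmtFiber :=
  H724.stmtPack H324.stmtSE H243.stmtProj H243.stmtSlab H119.ha

section scale

variable {Γ : Type} [Group Γ]

/-- every nontrivial character is a positive multiple of a surjective one -/
theorem exists_surj (χ : Γ →* Multiplicative ℤ) (h : χ ≠ 1) :
    ∃ (ψ : Γ →* Multiplicative ℤ) (c : ℤ), 0 < c ∧ Function.Surjective ψ ∧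
      ∀ g, deg χ g = c * deg ψ g := by
  let H : AddSubgroup ℤ :=
    { carrier := Set.range (deg χ)
      zero_mem' := ⟨1, deg_one χ⟩
      add_mem' := by
        rintro _ _ ⟨a, rfl⟩ ⟨b, rfl⟩
        exact ⟨a * b, deg_mul χ a b⟩
      neg_mem' := by
        rintro _ ⟨a, rfl⟩
        exact ⟨a⁻¹, deg_inv χ a⟩ }
  obtain ⟨a, ha⟩ := Int.subgroup_cyclic H
  have hmem : ∀ x : ℤ, x ∈ H ↔ |a| ∣ x := by
    intro x
    rw [ha, AddSubgroup.mem_closure_singleton, abs_dvd]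
    constructor
    · rintro ⟨n, rfl⟩; exact ⟨n, by rw [smul_eq_mul, mul_comm]⟩
    · rintro ⟨n, rfl⟩; exact ⟨n, by rw [smul_eq_mul, mul_comm]⟩
  have ha0 : 0 < |a| := by
    rcases eq_or_ne a 0 with h0 | h0
    · exfalso; apply h
      ext g
      have : deg χ g ∈ H := ⟨g, rfl⟩
      rw [hmem, h0, abs_zero, zero_dvd_iff] at this
      simpa [deg] using this
    · exact abs_pos.2 h0
  have hd : ∀ g, |a| ∣ deg χ g := fun g => (hmem _).1 ⟨g, rfl⟩
  let ψ : Γ →* Multiplicative ℤ :=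
    { toFun := fun g => Multiplicative.ofAdd (deg χ g / |a|)
      map_one' := by simp
      map_mul' := fun x y => by
        rw [deg_mul, Int.add_ediv_of_dvd_left (hd x), ofAdd_add] }
  have hψ : ∀ g, deg χ g = |a| * deg ψ g := fun g => by
    show deg χ g = |a| * (deg χ g / |a|)
    rw [Int.mul_ediv_cancel' (hd g)]
  refine ⟨ψ, |a|, ha0, ?_, hψ⟩
  intro y
  obtain ⟨g, hg⟩ : |a| * Multiplicative.toAdd y ∈ H := (hmem _).2 ⟨_, rfl⟩
  refine ⟨g, ?_⟩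
  have h1 := hψ g
  rw [hg] at h1
  have h2 := mul_left_cancel₀ ha0.ne' h1
  apply Multiplicative.toAdd.injective
  exact h2.symm

theorem Up.scale_iff {S : Finset Γ} {χ ψ : Γ →* Multiplicative ℤ} {c : ℤ} (hc : 0 < c)
    (h : ∀ g, deg χ g = c * deg ψ g) (hU : Up S (fun g => (deg χ g : ℝ))) :
    Up S (fun g => (deg ψ g : ℝ)) := by
  have hc' : (0 : ℝ) < (c : ℝ)⁻¹ := inv_pos.2 (by exact_mod_cast hc)
  have := H856.Up.scale hU hc'
  have h2 : (fun g => (c : ℝ)⁻¹ * (deg χ g : ℝ)) = fun g => (deg ψ g : ℝ) := by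
    funext g
    rw [h g]
    have : (c : ℝ) ≠ 0 := by exact_mod_cast hc.ne'
    push_cast
    field_simp
  rwa [h2] at this

theorem exists_pos {ψ : Γ →* Multiplicative ℤ} (h : Function.Surjective ψ) : ∃ g, 0 < deg ψ g := by
  obtain ⟨g, hg⟩ := exists_deg ψ h 1
  exact ⟨g, by omega⟩

theorem surj_inv {ψ : Γ →* Multiplicative ℤ} (h : Function.Surjective ψ) :
    Function.Surjective (ψ⁻¹ : Γ →* Multiplicative ℤ) := by
  intro y
  obtain ⟨g, hg⟩ := h y⁻¹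
  exact ⟨g, by simp [hg]⟩

end scale

section push

variable {k Γ : Type} [Field k] [Group Γ]

theorem push4 (RK : StmtRK) (P : PDG k Γ 3) (hF : Folner Γ) (ψ : Γ →* Multiplicative ℤ)
    (hψ : Function.Surjective ψ) (S : Finset Γ) (h1 : Up S (fun g => (deg ψ g : ℝ)))
    (h2 : Up S (fun g => (deg ψ⁻¹ g : ℝ))) : P.Push ψ ∧ P.Push ψ⁻¹ := by
  obtain ⟨R, hR⟩ := H708.stmtPrimal k Γ 2 P
  obtain ⟨R', hR'⟩ := H708.stmtDual k Γ 2 P
  have asm := H417.asm RK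
  constructor
  · refine asm k Γ 3 P ψ 2 (by omega) (by omega) hF hψ ((hR ψ).2 (H11.lowB k Γ ψ R S h1)) ?_
    have := (hR' ψ⁻¹).2 (H11.lowB k Γ ψ⁻¹ R' S h2)
    rwa [inv_inv] at this
  · exact asm k Γ 3 P ψ⁻¹ 2 (by omega) (by omega) hF (surj_inv hψ)
      ((hR ψ⁻¹).2 (H11.lowB k Γ ψ⁻¹ R S h2)) ((hR' ψ).2 (H11.lowB k Γ ψ R' S h1))

theorem push3 (RK : StmtRK) (P : PDG k Γ 2) (hF : Folner Γ) (ψ : Γ →* Multiplicative ℤ)
    (hψ : Function.Surjective ψ) (S : Finset Γ) (h1 : Up S (fun g => (deg ψ g : ℝ))) :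
    P.Push ψ ∧ P.Push ψ⁻¹ := by
  obtain ⟨R, hR⟩ := H708.stmtPrimal k Γ 1 P
  obtain ⟨R', hR'⟩ := H708.stmtDual k Γ 1 P
  have asm := H417.asm RK
  constructor
  · refine asm k Γ 2 P ψ 2 (by omega) (by omega) hF hψ ((hR ψ).2 (H11.lowB k Γ ψ R S h1)) ?_
    have := (hR' ψ⁻¹).1 (H11.lowA k Γ ψ⁻¹ R' (exists_pos (surj_inv hψ)))
    rwa [inv_inv] at this
  · exact asm k Γ 2 P ψ⁻¹ 1 (by omega) (by omega) hF (surj_inv hψ)
      ((hR ψ⁻¹).1 (H11.lowA k Γ ψ⁻¹ R (exists_pos (surj_inv hψ))))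
      ((hR' ψ).2 (H11.lowB k Γ ψ R' S h1))

theorem push2' (RK : StmtRK) (P : PDG k Γ 1) (hF : Folner Γ) (ψ : Γ →* Multiplicative ℤ)
    (hψ : Function.Surjective ψ) : P.Push ψ := by
  obtain ⟨R, hR⟩ := H708.stmtPrimal k Γ 0 P
  obtain ⟨R', hR'⟩ := H708.stmtDual k Γ 0 P
  refine H417.asm RK k Γ 1 P ψ 1 (by omega) (by omega) hF hψ
    ((hR ψ).1 (H11.lowA k Γ ψ R (exists_pos hψ))) ?_
  have := (hR' ψ⁻¹).1 (H11.lowA k Γ ψ⁻¹ R' (exists_pos (surj_inv hψ)))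
  rwa [inv_inv] at this

theorem push2 (RK : StmtRK) (P : PDG k Γ 1) (hF : Folner Γ) (ψ : Γ →* Multiplicative ℤ)
    (hψ : Function.Surjective ψ) : P.Push ψ ∧ P.Push ψ⁻¹ :=
  ⟨push2' RK P hF ψ hψ, push2' RK P hF ψ⁻¹ (surj_inv hψ)⟩

end push

/-- descent for a PD₂ group -/
theorem fiber2 (RK : StmtRK) {Γ : Type} [Group Γ] (P : PDG ℚ Γ 1) (hF : Folner Γ)
    (ψ : Γ →* Multiplicative ℤ) (hψ : Function.Surjective ψ) : Nonempty (PDG ℚ ψ.ker 0) := by
  obtain ⟨h1, h2⟩ := push2 RK P hF ψ hψ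
  exact stmtFiber ℚ Γ ψ 0 P hψ h1 h2

/-- descent for a PD₃ group: the kernel of every nontrivial character is the kernel of a surjective
one, and is a PD₂ group -/
theorem fiber3 (RK : StmtRK) (thC : StmtC) {Γ : Type} [Group Γ] (P : PDG ℚ Γ 2) (hF : Folner Γ)
    (ψ : Γ →* Multiplicative ℤ) (hψ : Function.Surjective ψ) : Nonempty (PDG ℚ ψ.ker 1) := by
  obtain ⟨S, N, hS, hN⟩ := H838.stmtFP2 Γ 1 P
  have hchar : IsChar (fun g => (deg ψ g : ℝ)) := fun a b => by simp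
  have hne : (fun g => (deg ψ g : ℝ)) ≠ 0 := by
    obtain ⟨g, hg⟩ := exists_pos hψ
    intro h
    have := congrFun h g
    simp at this
    omega
  have h3 : P.Push ψ ∧ P.Push ψ⁻¹ := by
    rcases thC Γ S N _ hF hS hN hchar hne with h | h
    · exact push3 RK P hF ψ hψ S h
    · have h' : Up S (fun g => (deg ψ⁻¹ g : ℝ)) := by
        have e : (fun g => (deg ψ⁻¹ g : ℝ)) = -(fun g => (deg ψ g : ℝ)) := by
          funext g; simp
        rw [e]; exact h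
      have := push3 RK P hF ψ⁻¹ (surj_inv hψ) S h'
      rw [inv_inv] at this
      exact ⟨this.2, this.1⟩
  exact stmtFiber ℚ Γ ψ 1 P hψ h3.1 h3.2

/-- descent for a PD₄ group with two independent characters -/
theorem fiber4 (RK : StmtRK) (thC : StmtC) {G : Type} [Group G] (P : PDG ℚ G 3) (hG : Folner G)
    (χ₁ χ₂ : G →* Multiplicative ℤ)
    (hχ : ∀ a b : ℤ, (∀ g, a * deg χ₁ g + b * deg χ₂ g = 0) → a = 0 ∧ b = 0) :
    ∃ ψ : G →* Multiplicative ℤ, Function.Surjective ψ ∧ Nonempty (PDG ℚ ψ.ker 2) ∧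
      ∃ (a b : ℤ), ∀ g, deg ψ g = 0 ↔ a * deg χ₁ g + b * deg χ₂ g = 0 := by
  obtain ⟨S, N, hS, hN⟩ := H838.stmtFP2 G 2 P
  obtain ⟨a, b, hab, hab'⟩ := H856.stmtO G S χ₁ χ₂ hS hχ
    (fun θ hθ h0 => thC G S N θ hG hS hN hθ h0)
  let χ : G →* Multiplicative ℤ := χ₁ ^ a * χ₂ ^ b
  have hdeg : ∀ g, deg χ g = a * deg χ₁ g + b * deg χ₂ g := fun g => by
    simp [χ, deg, MonoidHom.mul_apply]
  have hχ1 : χ ≠ 1 := by
    obtain ⟨h, hh, -⟩ := hab
    intro e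
    have := hdeg h
    rw [e] at this
    simp only [← this] at hh
    simp [deg] at hh
  obtain ⟨ψ, c, hc, hψ, hψc⟩ := exists_surj χ hχ1
  have h1 : Up S (fun g => (deg ψ g : ℝ)) := by
    refine Up.scale_iff hc hψc ?_
    simpa only [hdeg] using hab
  have h2 : Up S (fun g => (deg ψ⁻¹ g : ℝ)) := by
    refine Up.scale_iff (χ := χ⁻¹) hc (fun g => by simp [hψc g]) ?_
    simpa only [deg_inv', hdeg, Int.cast_neg] using hab'
  obtain ⟨h3, h4⟩ := push4 RK P hG ψ hψ S h1 h2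
  refine ⟨ψ, hψ, stmtFiber ℚ G ψ 2 P hψ h3 h4, a, b, fun g => ?_⟩
  rw [← hdeg, hψc g]
  constructor
  · intro h; rw [h, mul_zero]
  · intro h; exact (mul_eq_zero.1 h).resolve_left hc.ne'

end Vale.Agent.P260.H493
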