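import Mathlib
import Vale.Agent.P260.H119.Outer
import Vale.Agent.P260.H119.V7
import Vale.Agent.P260.H103.Bass
import Vale.Agent.P260.H802.TrD
import Vale.Agent.P260.H81.V5
import Vale.Agent.P260.H838.FG
import Vale.Agent.P260.H307.W1
import Vale.Agent.P260.H724.FI
import Vale.Agent.P260.H66.ThC
import Vale.Agent.P260.H932.RK

/-!
# P260 climb: assembly of the modules
-/

namespace Vale.Agent.P260.H493

open Vale.Agent.P260.H145 (PD4Z)

/-- V7: torsion-free amenable duality groups of dimension two over `ℚ` are virtually solvable. -/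
theorem stmtPD2 : H802.StmtPD2 :=
  H119.pd2 H103.stmtBass H802.stmtTr H324.stmtChar H838.stmtFG0 H81.stmtEnds H848.stmtExt
    H838.stmtFP2 H11.lowA H708.stmtPrimal H708.stmtDual (H417.asm H932.stmtRK) stmtFiber

theorem stmtUpFG : H119.StmtUpFG := by
  intro Γ _ S ψ hS hψ hfg
  obtain ⟨h1, h2⟩ := H307.w1 hS ψ hψ hfg
  refine ⟨h1, ?_⟩
  have e : (fun g => (deg ψ⁻¹ g : ℝ)) = fun g => -(deg ψ g : ℝ) := by
    funext g; simp
  rw [e]
  exact h2

/-- Two independent characters of a subgroup of finite index. -/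
theorem two_characters {G : Type} [Group G] (P : PD4Z G) (hG : Folner G) (H : Subgroup G)
    (hH : H.FiniteIndex) (χ₁ χ₂ : H →* Multiplicative ℤ)
    (hχ : ∀ a b : ℤ, χ₁ ^ a * χ₂ ^ b = 1 → a = 0 ∧ b = 0) : VSolv G := by
  refine H119.final1 H932.stmtRK H66.stmtC stmtPD2 H724.stmtFI P hG H hH χ₁ χ₂ ?_
  intro a b hab
  apply hχ a b
  ext g
  have h := hab g
  show Multiplicative.toAdd ((χ₁ ^ a * χ₂ ^ b) g) = 0
  rw [MonoidHom.mul_apply, MonoidHom.zpow_apply, MonoidHom.zpow_apply, toAdd_mul, toAdd_zpow,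
    toAdd_zpow, smul_eq_mul, smul_eq_mul]
  exact h

/-- A character with finitely generated kernel `K`, such that a subgroup of finite index of `K` has
a nontrivial character. -/
theorem fibre {G : Type} [Group G] (P : PD4Z G) (hG : Folner G) (H : Subgroup G)
    (hH : H.FiniteIndex) (ψ : H →* Multiplicative ℤ) (hψ : Function.Surjective ψ)
    (hfg : Group.FG ψ.ker) (K : Subgroup ψ.ker) (hK : K.FiniteIndex)
    (χ : K →* Multiplicative ℤ) (hχ : χ ≠ 1) : VSolv G :=
  H119.final2 H932.stmtRK H66.stmtC stmtPD2 H724.stmtFI stmtUpFG P hG H hH ψ hψ hfg K hK χ hχ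

end Vale.Agent.P260.H493
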