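import Mathlib

/-!
# P260 climb: paper proofs of the modules of `H493/Spec.lean` (text only)

TARGET.  `G` amenable, `PD4Z G`, two independent characters `χ₁ χ₂ : G →* Multiplicative ℤ`.
Then `L = ker χ₁ ⊓ ker χ₂` is `PDG ℚ L 1` (a Poincare duality group of dimension 2 over ℚ).
Chain: M1 (PDG ℚ G 3), M2 (S, FP2), M3+M4 give integers a, b with `Up S (±(aχ₁+bχ₂))`, ψ = the
surjective multiple.  M5+M6: `Low ψ^± 2`, `High ψ^± 2`; M7 (with M8): `Push ψ`, `Push ψ⁻¹`;
M14: `K = ker ψ` is `PDG ℚ K 2`.  For `K`: M2, M3 for a nonzero restriction χ of χ₁ or χ₂: `Up S χ` or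
`Up S (-χ)`, w.l.o.g. the first.  `Push χ` = `Low χ 2` (M5b, M6a) + `High χ 2` (M5a, M6b);
`Push χ⁻¹` = `Low χ⁻¹ 1` (M5a, M6a) + `High χ⁻¹ 1` (M5b for `χ`, M6b).  M14 again.
(For PDG _ _ 1: `Low 1`, `High 1` both by M5a.)

Everywhere A = k[Γ], e_j = Pi.single j 1, deg = deg ψ.  `Shift ψ C T` follows from
`∀ j, Ge ψ C (T e_j)` (lemma `shift_of_basis` in H493/Basic.lean), for `T` A-linear.  Also in
H493/Basic.lean: `Ge` is additive, `single g r • v` shifts degrees by deg g, every v satisfies some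
Ge and some Le, every A-linear T : (ι → A) → (κ → A) (ι finite) has some Shift.

## M1 StmtPDZ
r i = nᵢ (0 for i ≥ 5), d i = right multiplication by the matrices mapped to ℚ[G] (Matrix.vecMulLinear),
π = id, ε v = Σ aug(v i) c_i.  Exactness over ℚ from exactness over ℤ: multiply by a common
denominator N of all coefficients.  Hom_A(A^n, A) = column vectors.  co_top: θ⊗ℚ; φ₀ = a column w
with θ w = 1.  (H145/PDZ.lean does the same reduction mod p: copy its patterns.)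

## M2 StmtFP2   (A = ℚ[Γ], F₂ → F₁ → F₀ → ℚ from P, exact at F₀, F₁)
(a) Γ is finitely generated: let α₀ : F₀ → A with aug∘α₀ = ε, (choose α₀ e_j = ε(e_j)·1), β₀ : A → F₀,
β₀ 1 = a vector of ε-value 1.  I = ker aug.  α₀ maps ker ε = im d₀ into I.  For x ∈ I:
x = α₀β₀x + (x - α₀β₀x);  β₀x ∈ ker ε = im d₀, so α₀β₀x ∈ Σ A·α₀d₀(f_l); and 1 - α₀β₀ maps A to I, so
x - α₀β₀x = x·(1-α₀β₀)(1).  So I is generated as a left ideal by the finitely many elements
α₀d₀(f_l) and (1-α₀β₀)(1) ∈ I.  Let H = the subgroup generated by the supports of these.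
An element y ∈ I with support in H maps to 0 in k[Γ/H], so I → 0 in k[Γ/H], so g - 1 ↦ 0: gH = H.
S = these generators and their inverses.
(b) S any finite symmetric generating set, D : A^S → A, D(e_s) = s - 1.  im D = I.  Choose
α₁ : F₁ → A^S with D α₁ = α₀ d₀ (possible since α₀d₀f_l ∈ I = im D), β₁ : A^S → F₁ with d₀β₁ = β₀D
(β₀(s-1) has ε = 0), k₀ : A → A^S with D k₀ = 1-α₀β₀ (the element (1-α₀β₀)(1) is in I).
Then D(1 - α₁β₁ - k₀D) = 0.  For z ∈ ker D: z = α₁β₁z + (1-α₁β₁-k₀D)z, and d₀β₁z = 0 so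
β₁z = d₁y.  Hence ker D is generated over A by the finitely many α₁d₁(e_j), (1-α₁β₁-k₀D)(e_s).
(c) Every z ∈ ker D is a ℚ-combination of chains of closed walks: for a path (x; w) with letters in S
let ch(x,w) = Σ x_i e_{s_i} ∈ A^S; D ch(x,w) = x·w.prod - x.  For each x choose a word w_x from 1 to x
and c(x) = ch(1,w_x), and let C : A → A^S be the ℚ-linear extension.  z = Σ a_{x,s} x e_s, Σ a_{x,s}(xs - x) = 0
gives Σ a_{x,s}(c(xs) - c(x)) = 0, so z = Σ a_{x,s}(c(x) + x e_s - c(xs)), and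
c(x) + xe_s + ch(xs, reverse path to 1) is a closed walk, ch(y, reverse path of w_y) + c(y) is a sum of
chains of closed walks of length 2 (y e_s + ys e_{s⁻¹}).
(d) N = max of 2 and the lengths of the walks used for the finitely many generators.  A cochain c
(c x s) defines a ℚ-linear ĉ : A^S → ℚ, ĉ(x e_s) = c x s; it kills Γ-translates of the generators
(translates of closed walks are closed walks), so it kills ker D, so ĉ(ch(x,w)) = psum c x w = 0 for
closed walks.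

## M3 StmtC  (Theorem C of Bieri-Neumann-Strebel, amenable case)
Path: x, xs₁, xs₁s₂, ...  (right multiplication; Γ acts on the left).  ρ = max |θ s|.  For t ∈ ℝ the
edge (x,s), s ∈ S crosses t upwards if θ x < t ≤ θ(xs), downwards if θ(xs) < t ≤ θ x.
W1 (walls).  On upward edges at level t let ≈ be the equivalence relation generated by both edges (or
their reverses) lie on a common closed walk of length ≤ N.  A wall at level t is a class W.  Let
c_W(x,s) = 1 if (x,s) ∈ W, -1 if (xs,s⁻¹) ∈ W, 0 otherwise.  On a closed walk of length ≤ N all crossing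
edges are in one class; if it is W the sum of c_W is the total change of 1[θ ≥ t], i.e. 0, otherwise 0.
By FP2 S N, psum c_W = 0 on all closed walks, so there is v_W : Γ → ℚ (psum along any path) with
v_W(xs) - v_W(x) = c_W(x,s).  Two elementary-equivalent edges: along the common walk v_W - 1[θ≥t] is
constant; so v_W has the same value at all lower endpoints of edges of W; normalise it to 0; it is 1
at the upper endpoints.  Following a path from a lower endpoint, v_W ∈ {0,1} everywhere.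
W⁺ = {v_W = 1}.  Left translation: g·W is a wall at level t + θ g and (gW)⁺ = g W⁺.
W2.  If W' is another wall at the same level, or a wall at level t' with |t-t'| > Nρ, then v_W is
constant (= a) on all endpoints of edges of W' (a short closed walk through an edge of W' contains no
edge of W).  Likewise v_{W'} = b on W.  Since v_W changes only across W, where v_{W'} = b, and v_{W'}
only across W', where v_W = a, the pair (v_W, v_{W'}) never equals (1-a, 1-b) (follow a path starting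
at an endpoint of an edge of W).  So a=b=0: W⁺ ∩ W'⁺ = ∅;  a=b=1: complements disjoint;
a=1,b=0: W'⁺ ⊂ W⁺.
W3.  h ∈ S with θ h > 0 (exists).  Line A_y = (y hⁿ)_{n ∈ ℤ}; it crosses each level t exactly once, by
the edge e_y(t), in the wall x_y(t); x_{gy}(t + θ g) = g x_y(t).  On A_y: v_{x_y(t)} = 1[θ ≥ t]; if W is a
wall at level t different from x_y(t), v_W is constant on A_y.
μ = a left-invariant finitely additive probability on subsets of Γ (ultrafilter limit of Følner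
proportions; `Folner` is |gF \ F| ≤ ε|F|).  p(t) = μ(x_1(t)⁺): p(t + θ h) = p(t) (translate by h: hA_1 = A_1),
and for t' > t + Nρ: x_1(t')⁺ ⊂ x_1(t)⁺ (W2: a = 1, b = 0 by looking at A_1), so p(t') ≤ p(t); hence p is
constant, and μ(x_y(t)⁺) = p for all y, t.
W4.  Let s ∈ S, t > max(0, θ s), W1 = x_1(t), W2 = x_s(t) and suppose W1 ≠ W2.  v_{W1}(1) = 0, the edge
(1,s) does not cross t, so v_{W1}(s) = 0 and v_{W1} = 0 on A_s, so a = 0; symmetrically b = 0:
W1⁺ ∩ W2⁺ = ∅.  For t₀ very negative both are contained in x_1(t₀)⁺ (v_{x_1(t₀)}: value 1 at 1, at s, and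
at all points of A_1, A_s above level t₀; v_{W1}, v_{W2} vanish at low points of A_1).  So 2p ≤ p, p = 0.
Symmetrically if t ≤ min(0, θ s) and x_1(t) ≠ x_s(t): the complements are disjoint and contained in the
complement of x_1(t₁)⁺, t₁ large: 2(1-p) ≤ 1-p, p = 1.
W5.  So either (up) x_1(t) = x_s(t) for all s ∈ S, t > max(0,θ s) or (down) the same for t ≤ min(0,θ s).
(up): translating, x_y(t) = x_{ys}(t) for t > max(θ y, θ(ys)); by induction along a word for g:
x_1(t) = x_g(t) for all t ≥ some t_g.  Then e_1(t) and e_g(t) are joined by a chain of closed walks of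
length ≤ N through level t, i.e. by a path in {θ ≥ t - (N+1)ρ}; take t = θ(hⁿ): e_1(t) = (hⁿ⁻¹, h), and
e_g(t) is an edge of the line A_g, from which one walks along A_g to g hⁿ, within
{θ ≥ θ(hⁿ) - |θ g| - ...}.  So Up S θ.  (down) gives Up S (-θ) in the same way with h⁻¹.

## M4 StmtO
(a) criterion: Up S θ ⟺ ∃ h, 0 < θ h and for all s ∈ S there is a path from h to s h in
{y : θ y > min(0, θ s)}.  ⟹: take h := h₀ⁿ, n large (finitely many s).  ⟸: δ = min over s and over the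
vertices v of the chosen paths of θ v - min(0,θ s) > 0.  If x, y are joined by a path in {θ ≥ c}, with
vertices v_i, v_{i+1} = v_i s_i, then v_i h is joined to v_i s_i h = v_{i+1}h by v_i·(path for s_i), in
{θ ≥ min(θ v_i, θ v_{i+1}) + δ}; so xh, yh are joined in {θ ≥ c + δ}; iterate: xhⁿ, yhⁿ in {θ ≥ c + nδ}.
(b) for θ_{x,y} = xχ₁ + yχ₂ the criterion (fixed h, fixed paths: finitely many strict inequalities) is
open in (x,y); so U = {(x,y) ∈ ℝ² : Up S θ_{x,y}} is open; U ∪ -U = ℝ² \ {0} (for (x,y) ≠ 0 θ_{x,y} ≠ 0: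
integral independence implies real independence since the vectors (χ₁ g, χ₂ g) are integral);
ℝ² \ {0} is connected (isConnected_compl_singleton_of_one_lt_rank), so U ∩ -U ≠ ∅ is open and contains
a rational point; multiply by the common denominator (Up is invariant under positive scaling).

## M5 StmtLowA, StmtLowB  (R : F₂ → F₁ → F₀ → k_ω; c_j = ε(e_j))
ω is multiplicative and nonzero: ω(gh)ε v = ε(ghv) and ε is surjective.
LowA: h with deg h ≥ C (a power of g).  e_j - ω(h)⁻¹ h e_j ∈ ker ε = im d₀: h₀ e_j a preimage;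
(1-d₀h₀)e_j = ω(h)⁻¹ h e_j.
LowB: put for x ∈ F₀, T_n(Σ a_j e_j) = Σ a_j ω(h)⁻ⁿ hⁿ e_j (A-linear), h from Up.  Claim: for every v ∈ ker ε
and C there is N such that for n ≥ N, T_n v ∈ d₀(vectors of degree ≥ C).  By linearity it suffices:
v = (g - ω(g)) e_j: T_n v = ω(h)⁻ⁿ (g hⁿ - ω(g) hⁿ) e_j; for a path hⁿ = y₀, y₁ = y₀s₁, ..., y_m = g hⁿ in
{deg ≥ C'}: put ŷ = ω(y)⁻¹y; ŷ_{i+1} - ŷ_i = ω(y_{i+1})⁻¹ y_i (s_{i+1} - ω(s_{i+1})), and
(s - ω(s))e_j = d₀(u_{s,j}) (finitely many u_{s,j}), so (ŷ_m - ŷ₀)e_j = d₀(Σ ω(y_{i+1})⁻¹ y_i u_{s_{i+1},j}).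
And v = Σ b_j e_j, b_j ∈ k, Σ b_j c_j = 0: v = d₀u, T_n v = ω(h)⁻ⁿ hⁿ v = d₀(ω(h)⁻ⁿhⁿu).
Given C: choose n large for the finitely many v = d₀(f_l); h₀ with d₀h₀e_j = e_j - T_n e_j;
w_l of degree ≥ C with d₀w_l = T_n d₀f_l; then d₀(f_l - h₀d₀f_l - w_l) = 0, so it is d₁(h₁f_l).
(Work with the k-subspace {v : ∃ w, Ge ψ C w ∧ d₀ w = v}.)

## M6 StmtPrimal, StmtDual
Primal: ι_i = Fin (P.r i), d_i = P.d i, ω = 1.  Low ψ 1/2 from LowA/LowB with h i := 0 for i > 1.
Dual: bar : A → A, g ↦ g⁻¹, anti-automorphism.  For T : (ι→A) → (κ→A) A-linear, T* : (κ→A) → (ι→A),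
(T* w)_i = Σ_j w_j * bar((T e_i)_j); T** = T, (ST)* = T*S*, Shift ψ C T ⟺ Shift ψ⁻¹ C T*.
φ ∈ Hom_A(F, A) ↔ w ∈ F, w_i = bar(φ(e_i)); φ∘T ↔ T* w.  With n = m+2 = top degree:
ι0 = Fin (r n), ι1 = Fin (r (n-1)) ⊕ Fin (r n), ι2 = Fin (r (n-2)) ⊕ Fin (r n),
d0(a,b) = d_{n-1}* a + (1-π*) b, d1(a',b') = (d_{n-2}* a', π* b').
ε(w) = the c with φ∘π = c φ₀ + χ∘d_{n-1} for φ ↔ w (c is unique by co_top); ω(g) from
(φ₀·g⁻¹) ∘π = φ₀·g⁻¹.  Exactness: co_top, co m (π*d_{n-1}* = d_{n-1}* since d π = d).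
LowA: h0 = (a-part, b-part): π* - d_{n-1}* h0a = π* r  ⟹ π - h0a* d_{n-1} = r* π; put h_{n-1} := h0a* :
topDefect = π - π h d = π(π - h d) = π r* π: Shift ψ⁻¹ (C - const), so apply LowA with C + const.
LowB: the F_{n-1}*-component of 1 - h0 d0 - d1 h1 gives 1 - h0a d_{n-1}* - d_{n-2}* h1aa ∈ Shift, adjoint:
1 - d_{n-1} h_{n-1} - h_{n-2} d_{n-2} with h_{n-2} = (h1aa)*.

## M7 StmtASM (StmtRK → StmtASM)
Calculus of sequences: Bd, Null, Cau closed under +, -; Null∘Bd, Bd∘Null are Null; Cau∘Cau is Cau when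
both are Bd.  T ≈ T' iff T - T' Null.  Constant sequences are Bd and Cau.
Low ψ j with C = 1: h_i, i < j, r_i = defect h i.  (1-r_i)d_i = d_i(1-r_{i+1}) for i+1 < j.
s_i(n) = h_i Σ_{l<n} r_i^l.  Then d_i s_i + s_{i-1} d_{i-1} = 1 - r_i^n ≈ 1 for i < j.
High ψ j with C large: h'_i; t_i = (Σ_{l<n} r'_{i+1}^l) h'_i for j ≤ i < m, (r' = defect h') and for the
top: ρ = topDefect h' + replaced by ρπ (= π - πhdπ = ρ since dπ = d), t_m(n) = (Σ_{l<n} ρ^l) π h'_m:
t_m d_m = (Σρ^l)(π - ρ) = π - ρ^n π ≈ π; (1-r'_i)d_i = d_i(1-r'_{i+1}); d_m ρ = d_m - d_m π h d_m = r'_m d_m.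
So d_i t_i + t_{i-1}d_{i-1} ≈ 1 for j < i ≤ m.
e = (1 - d_j t_j)(1 - s_{j-1}d_{j-1}) on F_j: e d_j ≈ 0, d_{j-1} e ≈ 0, e e ≈ e; by RK e ≈ 0.  Then
σ_j = t_j(1 - s_{j-1}d_{j-1}), σ_i = s_i (i < j), σ_i = t_i (i > j) satisfy dσ + σd ≈ 1 in all degrees
≤ m and π - πσ_m d_m ≈ 0.  Take n large.

## M8 StmtRK
Suppose e is not Null.  Since e is Cau and Bd there are c₀ ∈ ℤ and N₀, a basis vector e_β and
0 ≠ u = the degree-c₀ part of e_n(e_β), the same for all n ≥ N₀, and all e_n(e_{β'}) have degree ≥ c₀.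
B' = support of u ⊂ Γ × Fin b, β₀ = |B'|.  γ = bound with e_n, D, D' ∈ Shift (-γ), and also D, D' raise
degrees by at most γ.  Fix J large, then n with e_nD, D'e_n, e_n²-e_n ∈ Shift (J+2γ); e := e_n, X = 1-e.
Choose t with deg t = 1, L = ker ψ; E₀ ⊂ L finite with |E₀l \ E₀| ≤ ε|E₀| for all l in a finite
set Λ ⊂ L to be chosen (Folner of L: subgroup; and invert).  E = ∪_{0≤i<J} E₀ tⁱ.  V_E = vectors of F_j
with supports in E (dimension b J |E₀|).  π_J = truncation to degrees < J.  small = ≤ C₁|E₀| with C₁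
independent of J (E₀ is chosen so well, depending on J and all supports, that the Følner errors of all
slices together are ≤ |E₀|).
(1) rank(π_J e|V_E) ≥ (J - |c₀|)|E₀|/(β₀²+1): greedy choice in each slice of x ∈ E₀tⁱ such that the vectors
x·u have a private coordinate; different slices are triangular by degree.
(2) X D ≡ D, D' X ≡ D' modulo degree ≥ J.  rank(π_J X|V_E) ≥ dim(π_{J-γ}D' V_E) + dim(D V_{E'}) where
E' = {y ∈ E : y·supp D ⊂ E};  dim π_{J-γ}D'V_E ≥ dim D'V_E - small;  ker(D'|V_E) ⊂ res_E D(V_{E·(supp D)⁻¹})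
(exactness: v = D u; restrict u), so dim ker(D'|V_E) ≤ dim D V_{E'} + small.  Hence
rank(π_J X|V_E) ≥ dim V_E - small.
(3) res_E π_J X|V_E =: T'_X differs in rank by small from π_J X|V_E; (π_J e) T'_X has small rank on V_E
(e X ≡ 0 mod degree ≥ J; the part of X v of degree ≥ J is mapped by e to degree ≥ J - γ; the part
outside E small).  Sylvester: rank(π_J e|V_E) + rank T'_X ≤ dim V_E + small.
(1)-(3) give (J - |c₀|)/(β₀²+1) ≤ C₁, false for J large.

## M9 StmtSE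
Step: SEs Z' Z (a,b,e',e), p : F1' → F', range p = Z', q : F1 → F, range q = Z, all four modules
projective.  Then SEs (ker p) (ker q): ã with qã = ap, b̃ with pb̃ = bq, η : F' → F1' with pη = e',
ẽ' = 1 - b̃ã - ηp: pẽ' = p - bap - e'p = 0; on ker p it is 1 - b̃ã.  Same on the other side.
Base: Z' = ker ε', Z = ker ε (ã, b̃ lifts of the identity of K; η = 0).
FG: if F' is f.g. and for X = range a there is E f.g., E ≤ Z, X ⊓ Z ≤ E, then Z' = e'(F') + b(E) is f.g.
Recursion over i on triples (n_i, Z'_i ≤ (Fin n_i → R), ...): the next module is a f.g. free cover of Z'_i.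

## M10 StmtProj  A ≃ₗ[k[Δ]] (ℤ →₀ k[Δ]) by g ↦ (deg g, g t^{-deg g}).

## M11 StmtSlab  (slab [a,b] = vectors with Ge a and Le b)
Claim: ∃ C₁, for z ∈ F_i (i ≤ m), boundary (ε z = 0 if i = 0, d z = 0 otherwise), z in slab [a,b]:
z = d_i w with w in slab [a-C₁, b+C₁].  Start with any w.  Let β bound |degree change| of d's and of the
h's (for Push with C = 1, both directions).  u = the part of w of degree > b+β; w' = w - d(h u)
= w - u + r u + h_i d_i u with r, h from Push ψ⁻¹ (identity of degree i+1 ≤ m+1): d_i w' = z;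
d_i u = z - d_i(w-u) has degree ≤ b+2β, r u is lower than u by 1; so top(w') ≤ max(top(w)-1, b+3β); and
bottom(w') ≥ min(bottom(w), b+β-3β).  Iterate.  Then the same from below with Push ψ.
X f.g. over k[Δ] lies in a slab; E = d_i(slab of F_{i+1}), the slab is f.g. over k[Δ] (basis tʲe_l).

## M12 StmtAcyc   r_i = defect h i, ρ = topDefect h, for Push ψ⁻¹ with C = 1.
z(r v): v of degree ≤ c+1 ⟹ r v of degree ≤ c ⟹ z(rv) = 0.  z∘d_i = 0 ⟹ z = z∘r_i + z∘h_{i-1}∘d_{i-1},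
r_{i}d_{i} = d_i r_{i+1} so z∘r_i^l is again a cocycle, z = Σ_l (z r^l - z r^{l+1}) = (Σ_l z r^l h_{i-1}) d_{i-1},
a locally finite sum (∑ᶠ).  i = 0: z = z r^l for all l, so z v = 0.  Top: z = zρ + z h_m d_m (zπ = z).

## M13 StmtHA   (from StmtAcyc for ψ and ψ⁻¹)
pr₀ : A → k[Δ] the Δ-part (k[Δ]-linear).  Cut: every z : F_i → N is z₊ + z₋, z₊ UpF, z₋ DownF (z₊(v) =
z(part of v of degree ≥ 0)); Cc = functionals that are both UpF and DownF.
Cc ≅ Hom_A(F_i, A): φ ↦ pr₀∘φ; inverse z ↦ (v ↦ Σ_j tʲ z(t^{-j}v)) (finite sum, A-linear).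
(V) z π = z: z = z₊π + z₋π, each is a coboundary by Acyc (top case).
(0),(1) z∘d_i = 0: z₊d_i = -z₋d_i ∈ Cc is pr₀∘φ with φ∘d_{i+1} = 0 (or φπ = φ.. not needed for i+1 ≤ m),
so φ = χ∘d_i by P.co (P.co0 when.. i+1 ≥ 1 always) and c = pr₀χ: (z₊ - c)d_i = 0 and (z₋ + c)d_i = 0 are
coboundaries in Up, Down by Acyc; add.  For i = 0: both vanish, z = 0.
(2) φ₀ from co_top, c₀ = pr₀φ₀ is in Up and Down: c₀ = y₊d_{m+1} = -y₋d_{m+1}; z₀ = y₊ + y₋.
z₀ = y d_m ⟹ (cut y) y₊ - y'₊d_m = -(y₋ - y'₋d_m) ∈ Cc, = pr₀χ, so φ₀ = χ∘d_{m+1}: no.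
z cocycle: z₊d_{m+1} = pr₀φ, φπ = φ: φ = cφ₀ + χd: z₊ - c y₊ - pr₀χ and z₋ - c y₋ + pr₀χ are cocycles in Up,
Down, hence coboundaries.

## M14 StmtPack
From StmtSE with R = k[Δ], K = Triv k, F i = Fin (P.r i) → A, d i = resS (P.d i), M = m: r', d', ε'.
π' : F'_{m+1}: by the (V) part: N = Z' := ker d'_m, SEs(Z', Z = ker d_m); b|Z : Z → Z'; z = (b|Z)∘(d_{m+1})
: F_{m+2} → Z' satisfies zπ = z, so z = y∘d_{m+1} and y = b on Z (Z = range d_{m+1}: P.ex m);
ρ = y∘a + e' : F'_{m+1} → Z' is the identity on Z'; π' = 1 - ρ.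
co0: φ∘d'_0 = 0 ⟹ φ = f∘ε', f∘ε kills range d₀ so f∘ε = 0, f = 0.
co: φ∘d'_{i+1} = 0 ⟹ φ = f∘d'_i with f : Z'_i → k[Δ] (Z'_i = range d'_i = ker ε' or ker d'_{i-1});
z = f∘b∘d_i is a cocycle ⟹ z = y∘d_i, f∘b = y on Z_i; χ = y∘a + f∘e' restricts to f on Z'_i; φ = χ∘d'_i.
co_top: z₀ = f₀∘d_m, f₀ : Z_m → k[Δ]; φ₀ = f₀∘a∘d'_m; if φ₀ = χ∘d'_m then f₀ = χ∘b + f₀∘e on Z_m and
z₀ = (..)∘d_m: no.  φπ' = φ ⟹ φ = f∘d'_m, z = f∘b∘d_m = c z₀ + y d_m ⟹ f = c f₀a + (y a + f e').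
-/
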