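import Mathlib

/-!
# P260 climb, part II: paper proofs of the modules of `H493/Spec2.lean` (text only)

TARGET (final theorem): `G` amenable, `PD4Z G`, two independent characters  ⟹  `VSolv G`.
Glue: L = ker(χ|K) is PDG ℚ L 1 (part I).  (i) If L has a nontrivial character, a surjective one χ',
then `Push χ'^±` (M5a, M6, M7 with j = 1), M = ker χ' is PDG ℚ M 0 (M14), VSolv M (N2), f.g. (N1a), so
VSolv L (N3).  (ii) Otherwise N5, N6 give trAug π > tr1 π, N7 gives c, y, q (torsion-freeness from N4),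
N8 and N9: L is virtually solvable.  Then N1a + N3 twice: VSolv K, VSolv G.
A = ℚ[Γ], e_j = Pi.single j 1, aug = MonoidAlgebra.lift k k Γ 1.

## N1a StmtFG
α₀ : F₀ → A, α₀ e_j = ε(e_j)·1, so aug∘α₀ = ε; u ∈ F₀ with ε u = 1, β₀ a = a•u.  I = ker aug.  For x ∈ I:
x = α₀β₀x + (x - α₀β₀x), β₀x ∈ ker ε = im d₀, x - α₀β₀ x = x·(1 - α₀u), and 1 - α₀u ∈ I.  So I = Σ A·x_l with
finitely many x_l ∈ I (α₀d₀f_l and 1 - α₀u).  H = subgroup generated by the supports of the x_l: x_l ↦ 0 in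
k[Γ/H] (its coefficients sum to 0 and all cosets are H), so I ↦ 0, so gH = H for all g.

## N1b StmtInf  If Γ is finite, φ : F₀ → A, φ v = ε(v)·Σ_g g is A-linear, nonzero, φ∘d₀ = 0: contradicts co0.

## N3 StmtExt
M = ker χ f.g., H ≤ M solvable of finite index d.  M' = intersection of all subgroups of M of index d
(finitely many: M f.g.), characteristic in M, so normal in L, of finite index in M, solvable.  If χ = 1, M = L.
Otherwise choose t ∈ L with χ t a generator of the image; L' = M'⟨t⟩ is solvable (M' normal, quotient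
cyclic) and of index ≤ [M:M'] in L.

## N2 StmtPD1  (M with 0 → P → F₀ → ℚ → 0; use N1a, N1b)
Fn = {f : M → ℚ | for all g, f(g⁻¹x) = f(x) for all but finitely many x}.  For a ∈ A write
a·f = Σ a_g g f, (g f)(x) = f(g⁻¹x).  For f ∈ Fn and a ∈ I = ker aug, a·f is finitely supported: an element of
A.  φ_f : F₁ → A, φ_f(v) = (α₀d₀v)·f (α₀, β₀, u as in N1a): A-linear, φ_fπ = φ_f.
(1) φ_f = χ∘d₀ ⟹ f ∈ const + finite support: for a ∈ I, β₀a ∈ ker ε = im d₀, (α₀β₀a)·f = χ(β₀a) = a·χ(u);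
a - α₀β₀a = a z, z = 1 - α₀u ∈ I; so a·(f - χ(u) - z·f) = 0 for all a ∈ I, z·f finitely supported.
(2) φ₀ from co_top; φ₀' : ker ε → A with φ₀'(d₀v) = φ₀(v) (d₀v = 0 ⟹ πv = 0 ⟹ φ₀v = φ₀πv = 0);
D(g) = φ₀'((g-1)u) ∈ A, D(gh) = D(g) + gD(h); f₀(g) = -coefficient of D(g) at g; then g f₀ - f₀ = D(g) (compare
coefficients at x of D(x) = D(g) + gD(g⁻¹x)); f₀ ∈ Fn; φ_{f₀}(v) = φ₀'(β₀α₀d₀v) = φ₀(v) - χ(d₀v),
χ(w) = φ₀'((1-β₀α₀)w).  So f₀ ∉ const + finite (if f₀ = const + y then φ_{f₀}(v) = α₀(d₀v)·y is a coboundary).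
(3) every f ∈ Fn is λf₀ + const + finite (φ_f = cφ₀ + χd₀ by co_top, then (1) for f - cf₀).
(4) f₀² ∈ Fn: f₀² = λf₀ + μ outside a finite set, so f₀ has at most two values outside a finite set, and
exactly two, each infinitely often.  X = {f₀ = α}: X and Xᶜ infinite, gX =ᵃ X for all g (=ᵃ: up to a finite set).
(5) for c ∈ M, 1_{Xc} ∈ Fn is λ1_X + μ + finite: Xc =ᵃ X or Xc =ᵃ Xᶜ.  M₀ = {c : Xc =ᵃ X}, index ≤ 2.
δ : M₀ → ℤ, δ(c) = |Xc \ X| - |X \ Xc| = Σ_x (1_{Xc} - 1_X)(x), a homomorphism.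
(6) ker δ is finite: S finite symmetric generating set, graph x — sx (left multiplication; connected;
right multiplication acts by automorphisms).  ∂X = edges between X and Xᶜ: finite, nonempty.  B = finite
connected vertex set containing the ends of all edges of ∂X.  For all but finitely many c, Bc ∩ B = ∅; then
Bc lies in X or in Xᶜ (connected, contains no edge of ∂X, since these lie in B), B lies in Xc or (Xc)ᶜ.  Four
cases: (Bc ⊂ X, B ⊂ (Xc)ᶜ): Xc ∩ Xᶜ has no boundary edge, so is empty (it is not everything): Xc ⊂ X, proper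
(B meets X), δ(c) < 0.  (Bc ⊂ Xᶜ, B ⊂ Xc): X ⊂ Xc proper, δ(c) > 0.  (Bc ⊂ X, B ⊂ Xc): Xᶜ ∩ (Xc)ᶜ = ∅,
impossible for c ∈ M₀ (it is =ᵃ Xᶜ, infinite).  (Bc ⊂ Xᶜ, B ⊂ (Xc)ᶜ): X ∩ Xc = ∅, impossible.
(7) M₀ has the finite normal subgroup ker δ with quotient ≤ ℤ; M₀ is infinite, choose t ∈ M₀ with δ t ≠ 0
generating the image: ⟨t⟩ has finite index in M₀.  So VSolv M.

## N4 StmtTF
g of prime order ℓ (a power of a torsion element), C = ⟨g⟩.  Restricted to ℤ[C], the resolution is a finite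
resolution of ℤ by projective (free) modules; so ℤ has finite projective dimension over ℤ[C].  But there are
exact sequences 0 → ℤ → ℤC → ℤC → ℤ → 0 (norm, g - 1), so by Schanuel ℤ ⊕ (projective) ≅ ℤ-syzygy ⊕ ..: ℤ is
projective over ℤ[C]: then aug : ℤC → ℤ splits, by an element e with g e = e, so e = aN, aug e = aℓ = 1: no.
(Concretely: every module in the periodic resolution is ℤ or I_C; after 5 or 6 steps the syzygy of ℤ is
projective, by comparison with the given resolution.)  Alternative: over 𝔽_ℓ use a homotopy: Tate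
cohomology vanishes on free modules, dimension shifting along ex₀ … ex₄ gives Ĥ⁰(C; ℤ) = ℤ/ℓ = 0: for the
exact sequence 0 → F₄ → … → F₀ → ℤ → 0 of ℤ[C]-modules with Fᵢ free over ℤ[C]: Ĥ^*(C; Fᵢ) = 0, where only
Ĥ⁰(M) = M^C/NM and Ĥ⁻¹(M) = ker N/(g-1)M are needed: for 0 → M' → F → M → 0 with Ĥ⁰(F) = Ĥ⁻¹(F) = 0,
Ĥ⁰(M') = 0 ⟹ Ĥ⁻¹(M) = 0 and Ĥ⁻¹(M') = 0 ⟹ Ĥ⁰(M) = 0.  So Ĥ^*(F₄) = 0 ⟹ … ⟹ Ĥ⁰(ℤ) = 0, but it is ℤ/ℓ.

## N5 StmtB1
aug(π) := the ℚ-matrix of aug((π e_i)_j), idempotent, so its trace = its rank ρ.  Tensoring with the trivial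
module: δ₁ = aug(d₁) : ℚ^{r₂} → ℚ^{r₁}, δ₀ : ℚ^{r₁} → ℚ^{r₀}, both on row vectors, δ₁ = δ₁∘aug(π) so rank δ₁ ≤ ρ;
im δ₀ = kernel of (x ↦ Σ x_jε(e_j)), so rank δ₀ = r₀ - 1.  Claim ker δ₀ = im δ₁; then r₁ - (r₀ - 1) ≤ ρ.
Claim by duality: a functional ℓ on ℚ^{r₁} with ℓδ₁ = 0 is of the form ℓ'δ₀: ℓ∘aug : F₁ → ℚ kills im d₁ = ker d₀,
so it is w∘d₀ with w : ker ε → ℚ, w(g v) = w(v).  x ↦ w((x-1)u) (u as in N1a) is a homomorphism L → ℚ:
(xy-1)u = (x-1)u + x(y-1)u; it is 0 (L f.g. by N1a: the image is f.g. in ℚ, so cyclic).  So w(a u) = 0 for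
a ∈ I.  For v ∈ ker ε: v = (α₀v)u + (v - (α₀v)u), α₀v ∈ I, and v ↦ v - (α₀v)u maps all of F₀ to ker ε; so
w(v) = ℓ''(v) := w(v - (α₀v)u), defined on F₀, L-invariant, so ℓ'' = ℓ'∘aug.

## N6 StmtTr1
S = finite set containing 1 and all supports of entries of d₀, d₁, π.  Right Følner sets E (invert Folner's):
|Es \ E| ≤ ε|E|, s ∈ S ∪ S⁻¹, and |E| as large as we like (if |E| ≤ M and ε < 1/M then Es = E on M+1 different
s, too many).  V_E^i = vectors of F_i supported in E.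
(a) T = res_E∘π on V_E² (F₂): trace T = |E| tr1 π.  For x with xSS ⊂ E, T²(xe_j) = T(xe_j).  U = ker(T² - T) has
codimension ≤ δ = r₂·#{x ∈ E : xSS ⊄ E}, is T-invariant, T idempotent on U.  On ℝ^{E×Fin r₂} ‖T‖ ≤ C₀ = the sum of
all |coefficients| of π.  trace T = trace(TQ) + trace(T(1-Q)), Q = orthogonal projection to U;
trace(TQ) = trace(T|U) = dim T(U), |trace(T(1-Q))| ≤ C₀ codim U.  So |E| tr1 π ≤ dim π(V_{E°}²) + C₁ε|E|,
E° = {x : xS ⊂ E}.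
(b) dim π(V_{E°}²) = dim d₁(V_{E°}²) (ex_top) ≤ dim(V_E¹ ∩ ker d₀) = r₁|E| - dim d₀(V_E¹).
(c) V_E⁰ ∩ ker ε ⊂ res_E d₀(V¹_{ES⁻¹}) (v = d₀u, restrict u to ES⁻¹), so r₀|E| - 1 ≤ dim d₀(V_E¹) + r₁|ES⁻¹ \ E|.
Together: tr1 π ≤ r₁ - r₀ + 1/|E| + C₂ε for all ε > 0 and large |E|.

## N7 StmtFrob
X = (x_{ij}), x_{ij} = (X e_i)_j ∈ ℚL, X² = X.  D = trAug X - tr1 X ≠ 0.  p prime not dividing the denominators of
the coefficients nor the numerator of D.  X̄ over 𝔽_p: X̄² = X̄.  (N a common denominator, Y = NX over ℤL,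
Y² = NY, X̄ = N⁻¹Ȳ.)  For a class function f : L → 𝔽_p put t_f(Z) = Σ_i Σ_g (z_ii)_g f(g) on matrices over 𝔽_pL:
t_f(ZW) = t_f(WZ).  Frobenius: t_f(Z^p) = t_{f^{(p)}}(Z), f^{(p)}(g) = f(g^p): expand Z = Σ z_b b over the basis
b = e_ij g; Z^p = sum over p-tuples (b₁..b_p) of Π z · b₁…b_p; t_f is invariant under the cyclic rotation of
tuples, orbits have size p or 1, so only constant tuples count: (z_b)^p t_f(b^p), (z_b)^p = z_b,
(e_ij g)^p = 0 for i ≠ j, e_ii g^p for i = j.  So t_f(X̄) = t_f(X̄^{p^m}) = Σ_i Σ_g (x̄_ii)_g f(g^{p^m}) for all m.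
With f = 1 - δ_1: t_f(X̄) = D̄ ≠ 0.  f is the sum of the indicators of the conjugacy classes ≠ 1 that meet the
(finite) support, so t_{1_C}(X̄) ≠ 0 for some class C ≠ {1}.  Hence for every m there is g in the finite support
of the diagonal with g^{p^m} ∈ C; two m < m' with the same g: c = g^{p^m} ∈ C, c ≠ 1, c^{p^{m'-m}} ∈ C is
conjugate to c: y c y⁻¹ = c^q, q = p^{m'-m} ≥ 2.  (Torsion-freeness is used only through c ≠ 1; it can be
dropped, the hypothesis is harmless.)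

## N8 StmtBS   (L, P : PDG ℚ L 1; H = ⟨c,y⟩ of infinite index; contradiction)   A = ℚ[L]
First, c^i ≠ 1 for i ≠ 0 and y^n ∉ (powers of the y^{-j}cy^j) for n ≠ 0 (y^n commuting with c gives
c^{q^n} = c).  Every h ∈ H is y^{-i}c^k y^j (i,j ≥ 0) and η(h) = j - i is a well-defined homomorphism H → ℤ with
η(c) = 0, η(y) = 1.  λ = 1/q, χ(h) = λ^{η(h)}.
K: α = -(y - λ(1+c+…+c^{q-1})), β = c^q - 1, ∂₂ : A → A², z ↦ (zα, zβ); ∂₁ : A² → A, (a,b) ↦ a(c-1) + b(y-λ);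
J = im ∂₁, N = A/J.  ∂₁∂₂ = 0: (c^q-1)(y-λ) = (y - λ(1+…+c^{q-1}))(c-1) since c^q y = y c.
 (K1) ∂₂ injective, and a(c-1) = 0 ⟹ a = 0 (infinite order of c: finite support).
 (K2) ker ∂₁ = im ∂₂: let a(c-1) + b(y-λ) = 0.  For x ∈ L put b₁(x) = Σ_{g ∈ x⟨c⟩} b_g, b_q(x) = Σ_{g ∈ x⟨c^q⟩} b_g.
 Summing the coefficients of b(y-λ) ∈ A(c-1) over the coset x⟨c⟩: b_q(xy⁻¹) = λ b₁(x) = λ Σ_{i<q} b_q(xc^i)
 (x⟨c⟩y⁻¹ = xy⁻¹⟨c^q⟩).  If b_q ≠ 0, on a coset x₀H where it is nonzero take the maximal n such that b_q(x₀h) ≠ 0 for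
 some h with η(h) = n (finite support); for x = x₀hy the right side has η = n+1: it is 0, so b_q(x₀h) = 0.
 So b_q = 0, b = z(c^q-1), and then (a - zα)(c-1) = 0, a = zα.
 (K3) if 0 ≠ n ∈ N and g n ∈ ℚn for all g ∈ L then H has finite index: for x ∈ L, comp_x : A → ℚ,
 comp_x(a) = Σ_{h∈H} a_{xh}χ(h), kills J; if all comp_x(a) = 0 then a ∈ J (h - χ(h) ∈ Σ A(c-1) + A(y-λ) for
 all h ∈ H).  comp_{gx}(a) = comp_x(g⁻¹a).  So comp_x(a) ≠ 0 for one x implies for all x; supp(a) meets all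
 cosets xH.
Z (zigzag).  F_i* and T* as in M6 (dual of left modules by bar, (ST)* = T*S*).  e ∈ F₀ with ε e = 1; w₂ : F₀* → A the
A-linear map corresponding to e (F₀ = Hom_A(F₀*, A) as RIGHT modules: w ↦ Σ w_j bar(e_j)).  For a ∈ A with
aug a = 0, w₂·a (right multiplication) corresponds to bar(a)·e ∈ ker ε = im d₀, so w₂·a = w∘d₀* for some
w : F₁* → A.  With a = α, β (aug α = -(1 - λq) = 0, aug β = 0): ∂₂∘w₂ = w₁∘d₀*, w₁ : F₁* → A².
∂₁w₁d₀* = ∂₁∂₂w₂ = 0 so (exactness F₂ → F₁ → F₀ read through Hom_A(F_i*, A) = F_i: f∘d₀* = 0 ⟹ f = f'∘d₁*)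
∂₁∘w₁ = w₀∘d₁*, w₀ : F₂* → A.  f = (A → N)∘w₀∘π* : F₂* → N kills im d₁* and 1-π*, i.e. the kernel of
ε_R : F₂* → ℚ_ω of the dual Res3 (M6), so f(w) = ε_R(w)·n, g n = ω(g)n, so n = 0 by (K3): f = 0, w₀π* = ∂₁v₁
(v₁ : F₂* → A²).  ∂₁(w₁ - v₁d₁*) = w₀d₁* - w₀π*d₁* = 0 ⟹ w₁ = v₁d₁* + ∂₂v₂ (K2) ⟹ ∂₂(w₂ - v₂d₀*) = v₁d₁*d₀* = 0
⟹ w₂ = v₂d₀* (K1) ⟹ e ∈ im d₀, ε e = 0: contradiction.
(It may be easier to work with Hom_A(F_i, ·) directly and right modules; use helper708's calculus of M6.)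

## N9 StmtMeta  c_j = y^{-j}cy^j, j ≥ 0, c_{j+1}^q = c_j: the c_j generate an abelian subgroup B, y⁻¹By ⊂ B, yBy⁻¹ ⊂ B,
c ∈ B, so B is normal in ⟨c,y⟩ with cyclic quotient.
-/
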